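import Crest.Agent.N207.S.Ga.Peq

/-!
Row 207, S0320, block GAUGE (helper66): near `ξ = 0` a solution of `sys` solves (W), (K) in the
`x`-gauge; sufficient conditions for membership in `Om`.
-/

set_option autoImplicit false

open Set Filter
open scoped Topology ContDiff

noncomputable section
namespace Crest.Agent.N207.S.Ga

/-- jets of the identity. -/
def idj (j : ℕ) (x : ℝ) : ℝ := if j = 0 then x else if j = 1 then 1 else 0

/-- jets of `w = x + η`. -/
def wj (U : ℝ → ℝ → E3) (j : ℕ) (t x : ℝ) : ℝ := idj j x + cj U 0 j t x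

lemma wj_zero (U : ℝ → ℝ → E3) (t x : ℝ) : wj U 0 t x = x + U t x 0 := rfl
lemma wj_one (U : ℝ → ℝ → E3) (t x : ℝ) : wj U 1 t x = 1 + cj U 0 1 t x := rfl
lemma wj_succ (U : ℝ → ℝ → E3) (j : ℕ) (t x : ℝ) : wj U (j + 2) t x = cj U 0 (j + 2) t x := by
  simp [wj, idj]

lemma hd_idj (j : ℕ) (x : ℝ) : HasDerivAt (idj j) (idj (j + 1) x) x := by
  rcases j with _ | _ | j
  · exact hasDerivAt_id x
  · exact hasDerivAt_const x 1
  · exact hasDerivAt_const x 0

lemma continuous_idj (j : ℕ) : Continuous (idj j) :=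
  continuous_iff_continuousAt.2 fun x => (hd_idj j x).continuousAt

variable {e : ℝ} {b : ℕ} {h : Rel e b} {t0 t1 : ℝ} {U : ℝ → ℝ → E3}

lemma jet_wj {S : Ex.Sys E3} (h01 : t0 < t1) (hU : Ex.IsSol S t0 t1 U) :
    Jet t0 t1 1 (wj U) (ct S U 0) where
  cu j := ((continuous_idj j).comp continuous_snd).continuousOn.add ((jet_sol h01 hU 0).cu j)
  cv := (jet_sol h01 hU 0).cv
  dx j t x ht hx := (hd_idj j x).hasDerivWithinAt.add ((jet_sol h01 hU 0).dx j t x ht hx)
  dv := (jet_sol h01 hU 0).dv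
  dt j t x ht hx := ((jet_sol h01 hU 0).dt j t x ht hx).const_add _

/-- the `x`-gauge equations near `ξ = 0`. -/
theorem xsol (h01 : t0 < t1) (hU : Ex.IsSol (sys h) t0 t1 U)
    (hP : ∀ t ∈ Icc t0 t1, ∀ x ∈ Icc (0 : ℝ) 1, U t x 1 = cj U 0 1 t x) {xs : ℝ}
    (hxs : xs < 1 / 3) : XSol e t0 t1 xs (wj U) (ct (sys h) U 0) (cj U 2) (ct (sys h) U 2) := by
  have sub : ∀ x ∈ Icc (0 : ℝ) xs, x ∈ Icc (0 : ℝ) 1 ∧ x < 1 / 3 := fun x hx =>
    ⟨⟨hx.1, by linarith [hx.2]⟩, by linarith [hx.2]⟩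
  have pos : ∀ t ∈ Icc t0 t1, ∀ x ∈ Icc (0 : ℝ) xs, 0 < x + U t x 0 := fun t ht x hx => by
    have := (hU.mem t ht x (sub x hx).1).1
    simpa [wF, m1_left (sub x hx).2] using this
  refine ⟨(jet_wj h01 hU).monoX (by linarith), (jet_sol h01 hU 2).monoX (by linarith),
    fun t x ht hx => pos t ht x hx, fun t x ht hx => ?_, fun t x ht hx => ?_⟩
  · obtain ⟨a, c⟩ := sub x hx
    rw [ct0 hU ht a, ff_left e c, wj_succ U 0, wj_one, wj_zero]
    simp only [cj_zero, hP t ht x a, sub_self, mul_zero, add_zero, rhsW, ZF, m0_left c.le, zero_add]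
    ring
  · obtain ⟨a, c⟩ := sub x hx
    rw [ct2 hU ht a, gg_left h.1 (hU.mem t ht x a) c, sol_jet hU 1 ht a, wj_one, wj_zero]
    simp only [cj_zero, hP t ht x a, rhsK, gxF, ZF, m0_left c.le]
    ring

/-- bounds of the profile functions. -/
lemma exists_prof_bound : ∃ M : ℝ, 1 ≤ M ∧ ∀ x ∈ Icc (0 : ℝ) 1,
    |sig x| ≤ M ∧ |m2 x * (1 + m1 x ^ 2)| ≤ M ∧ |m1 x| ≤ M := by
  have h1 := contDiff_m1.continuous
  have h2 := contDiff_m2.continuous
  obtain ⟨A, hA⟩ := isCompact_Icc.exists_bound_of_continuousOn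
    (contDiff_sig.continuous.continuousOn (s := Icc (0 : ℝ) 1))
  obtain ⟨B, hB⟩ := (isCompact_Icc (a := (0 : ℝ)) (b := 1)).exists_bound_of_continuousOn
    (f := fun x => m2 x * (1 + m1 x ^ 2)) (by fun_prop)
  obtain ⟨C, hC⟩ := isCompact_Icc.exists_bound_of_continuousOn
    (h1.continuousOn (s := Icc (0 : ℝ) 1))
  refine ⟨max 1 (max A (max B C)), le_max_left _ _, fun x hx => ⟨?_, ?_, ?_⟩⟩
  · exact (hA x hx).trans (by simp)
  · exact (hB x hx).trans (by simp)
  · exact (hC x hx).trans (by simp)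

/-- the smallness constant for `η`. -/
def del0 : ℝ := 1 / (2 * exists_prof_bound.choose)

lemma del0_pos : 0 < del0 := by
  have := exists_prof_bound.choose_spec.1
  unfold del0; positivity

lemma small_of_del0 {x η : ℝ} (hx : x ∈ Icc (0 : ℝ) 1) (hη : |η| ≤ del0) :
    |sig x * η| ≤ 1 / 2 ∧ |m2 x * (1 + m1 x ^ 2) * η| ≤ 1 / 2 ∧ |m1 x * η| ≤ 1 / 2 := by
  obtain ⟨hM, hb⟩ := exists_prof_bound.choose_spec
  have e : exists_prof_bound.choose * del0 = 1 / 2 := by unfold del0; field_simp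
  obtain ⟨a, b, c⟩ := hb x hx
  refine ⟨?_, ?_, ?_⟩ <;> rw [abs_mul, ← e] <;>
    exact mul_le_mul (by assumption) hη (abs_nonneg _) (by linarith)

/-- sufficient condition for membership in `Om`; no smallness of `η` is needed near the poles. -/
theorem mem_Om {x : ℝ} {u : E3} (hx : x ∈ Icc (0 : ℝ) 1) (hη : 1 / 3 ≤ x → |u 0| ≤ del0)
    (hw : 0 < wF x (u 0)) (hk : 0 < 1 - m0 x * u 2) : (x, u) ∈ Om := by
  refine ⟨hw, hk, ?_, ?_⟩
  · rcases lt_or_ge x (1 / 3) with a | a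
    · simp [sig_left a]
    · linarith [(abs_le.1 (small_of_del0 hx (hη a)).1).2]
  · rcases lt_or_ge x (1 / 3) with a | a
    · simp [DF, m2_left a]
    · unfold DF
      linarith [(abs_le.1 (small_of_del0 hx (hη a)).2.1).1]

/-- the compact sets of the continuation argument. -/
def KK (c C : ℝ) : Set (ℝ × E3) :=
  {y | y.1 ∈ Icc (0 : ℝ) 1 ∧ (1 / 4 < y.1 → |y.2 0| ≤ del0) ∧ c ≤ wF y.1 (y.2 0) ∧
    c ≤ 1 - m0 y.1 * y.2 2 ∧ ∀ i, |y.2 i| ≤ C}

theorem KK_subset {c : ℝ} (hc : 0 < c) (C : ℝ) : KK c C ⊆ Om := fun _ hy =>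
  mem_Om hy.1 (fun a => hy.2.1 (by linarith)) (hc.trans_le hy.2.2.1) (hc.trans_le hy.2.2.2.1)

theorem isCompact_KK (c C : ℝ) : IsCompact (KK c C) := by
  have h0 := contDiff_m0.continuous
  have h1 := contDiff_m1.continuous
  refine ((isCompact_Icc (a := (0 : ℝ)) (b := 1)).prod
    (isCompact_closedBall (0 : E3) (2 * C))).of_isClosed_subset ?_ ?_
  · have a0 : IsClosed {y : ℝ × E3 | y.1 ∈ Icc (0 : ℝ) 1} := isClosed_Icc.preimage continuous_fst
    have a1 : IsClosed {y : ℝ × E3 | 1 / 4 < y.1 → |y.2 0| ≤ del0} :=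
      isClosed_imp (isOpen_lt continuous_const continuous_fst)
        (isClosed_le (by fun_prop) continuous_const)
    have a2 : IsClosed {y : ℝ × E3 | c ≤ wF y.1 (y.2 0)} :=
      isClosed_le continuous_const (by unfold wF; fun_prop)
    have a3 : IsClosed {y : ℝ × E3 | c ≤ 1 - m0 y.1 * y.2 2} :=
      isClosed_le continuous_const (by fun_prop)
    have a4 : IsClosed {y : ℝ × E3 | ∀ i, |y.2 i| ≤ C} := by
      rw [ofPred_forall]
      exact isClosed_iInter fun i => isClosed_le (by fun_prop) continuous_const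
    exact a0.inter (a1.inter (a2.inter (a3.inter a4)))
  · intro y hy
    refine ⟨hy.1, ?_⟩
    have hb := hy.2.2.2.2
    have hC : 0 ≤ C := (abs_nonneg _).trans (hb 0)
    rw [mem_closedBall_zero_iff, EuclideanSpace.norm_eq, Real.sqrt_le_left (by linarith),
      Fin.sum_univ_three]
    simp only [Real.norm_eq_abs]
    have := fun i => pow_le_pow_left₀ (abs_nonneg _) (hb i) 2
    nlinarith [this 0, this 1, this 2]

end Crest.Agent.N207.S.Ga
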