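import Crest.Agent.N207.S.Ga.M
import Crest.Agent.N207.S.Ex.Defs

/-!
Row 207, S0320, block GAUGE (helper66): the reduced Ricci flow in the global gauge `ξ ∈ [0,1]`.
Unknown `u = (η, P, k)` (`P = η'`), `(w, x) = (ξ + m'η, m - (1-m'²)η)`, `Z = 2e m (1 - m k)`.
-/

set_option autoImplicit false

open Set Filter
open scoped Topology ContDiff

noncomputable section
namespace Crest.Agent.N207.S.Ga

abbrev E3 := EuclideanSpace ℝ (Fin 3)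

def wF (x h : ℝ) : ℝ := x + m1 x * h
def w1F (x h P : ℝ) : ℝ := 1 + m2 x * h + m1 x * P
def xF (x h : ℝ) : ℝ := m0 x * (1 - sig x * h)
def x1F (x h P : ℝ) : ℝ := m1 x + 2 * m1 x * m2 x * h + (m1 x ^ 2 - 1) * P
def DF (x h : ℝ) : ℝ := 1 + m2 x * (1 + m1 x ^ 2) * h
def ZF (e x k : ℝ) : ℝ := 2 * e * m0 x * (1 - m0 x * k)
def Z1F (e x k k1 : ℝ) : ℝ := 2 * e * (m1 x - 2 * m0 x * m1 x * k - m0 x ^ 2 * k1)
/-- `Z/x`. -/
def zeF (e x h k : ℝ) : ℝ := 2 * e * (1 - m0 x * k) / (1 - sig x * h)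
/-- `w'' - m' η''`. -/
def A1F (x h P : ℝ) : ℝ := m3 x * h + 2 * m2 x * P
/-- `x'' - (m'²-1) η''`. -/
def A2F (x h P : ℝ) : ℝ := m2 x + (2 * m2 x ^ 2 + 2 * m1 x * m3 x) * h + 4 * m1 x * m2 x * P
def G1F (e x h P k : ℝ) : ℝ := ZF e x k * A1F x h P - (ZF e x k * w1F x h P ^ 2 / wF x h + 1)
def G2F (e x h P k : ℝ) : ℝ := ZF e x k * A2F x h P - (zeF e x h k * x1F x h P ^ 2 + 1)
def betF (e x h P k : ℝ) : ℝ := (G1F e x h P k * (m1 x ^ 2 - 1) - G2F e x h P k * m1 x) / DF x h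
def fF (e x h P k : ℝ) : ℝ := betF e x h P k * P -
  ((1 + m2 x * h) * G2F e x h P k - (m1 x + 2 * m1 x * m2 x * h) * G1F e x h P k) / DF x h

/-- the drift `β` of the heat operator. -/
def bet (e : ℝ) (y : ℝ × E3) : ℝ := betF e y.1 (y.2 0) (y.2 1) (y.2 2)
/-- `η_t = Z η'' + ff`. -/
def ff (e : ℝ) (y : ℝ × E3) : ℝ := fF e y.1 (y.2 0) (y.2 1) (y.2 2)
/-- `Z/μ`. -/
def aa (e : ℝ) (y : ℝ × E3) : ℝ := 2 * e * nu y.1 * (1 - m0 y.1 * y.2 2)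

/-- total `ξ`-derivative (with `η'` replaced by `P`). -/
def Dt (F : ℝ × E3 → ℝ) (y : ℝ × E3) (p : E3) : ℝ := fderiv ℝ F y (1, !₂[y.2 1, p 1, p 2])

/-- `k_t - Z k''` for `0 < ξ < 1`, `b` = `β`, `b1` = `β'`. -/
def gmF (e x h P k k1 b b1 : ℝ) : ℝ :=
  -(ZF e x k * (2 * e * (m2 x - 2 * (m1 x ^ 2 + m0 x * m2 x) * k - 4 * m0 x * m1 x * k1)) +
    b * Z1F e x k k1 - Z1F e x k k1 ^ 2 / 2 - 2 * ZF e x k * b1 -
    ZF e x k ^ 2 * (w1F x h P / wF x h) ^ 2 -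
    (1 + 1 / e) / 2 * (zeF e x h k * x1F x h P) ^ 2) / (2 * e * m0 x ^ 2)

/-- `k_t - Z k''` in the `x`-gauge. -/
def gxF (e x w w1 k k1 : ℝ) : ℝ :=
  4 * e * (1 - x * k) * k1 + e * (k + x * k1) ^ 2 + k1 + k ^ 2 +
    2 * e * (1 - x * k) ^ 2 * w1 ^ 2 / w ^ 2

def gm (e : ℝ) (z : (ℝ × E3) × E3) : ℝ :=
  gmF e z.1.1 (z.1.2 0) (z.1.2 1) (z.1.2 2) (z.2 2) (bet e z.1) (Dt (bet e) z.1 z.2)
def g0 (e : ℝ) (z : (ℝ × E3) × E3) : ℝ :=
  gxF e z.1.1 (z.1.1 + z.1.2 0) (1 + z.1.2 1) (z.1.2 2) (z.2 2)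
def g1 (e : ℝ) (z : (ℝ × E3) × E3) : ℝ :=
  gxF e (1 - z.1.1) (z.1.1 - z.1.2 0) (z.1.2 1 - 1) (z.1.2 2) (-z.2 2)
/-- `k_t = Z k'' + gg`. -/
def gg (e : ℝ) : (ℝ × E3) × E3 → ℝ := patch (fun z => z.1.1) (g0 e) (gm e) (g1 e)

/-- the domain. -/
def Om : Set (ℝ × E3) :=
  {y | 0 < wF y.1 (y.2 0) ∧ 0 < 1 - m0 y.1 * y.2 2 ∧ 0 < 1 - sig y.1 * y.2 0 ∧ 0 < DF y.1 (y.2 0)}

/-- lower order part of the system. -/
def Psi (e : ℝ) (b : ℕ) (z : (ℝ × E3) × E3) : E3 :=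
  !₂[ff e z.1 + aa e z.1 * b * (1 - 2 * z.1.1) * (z.2 0 - z.1.2 1),
    Z1F e z.1.1 (z.1.2 2) (z.2 2) * z.2 1 + Dt (ff e) z.1 z.2, gg e z]

lemma isOpen_Om : IsOpen Om := by
  have h0 := contDiff_m0.continuous
  have h1 := contDiff_m1.continuous
  have h2 := contDiff_m2.continuous
  have h3 := contDiff_sig.continuous
  have a1 : IsOpen {y : ℝ × E3 | 0 < wF y.1 (y.2 0)} :=
    isOpen_lt continuous_const (by unfold wF; fun_prop)
  have a2 : IsOpen {y : ℝ × E3 | 0 < 1 - m0 y.1 * y.2 2} := isOpen_lt continuous_const (by fun_prop)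
  have a3 : IsOpen {y : ℝ × E3 | 0 < 1 - sig y.1 * y.2 0} := isOpen_lt continuous_const (by fun_prop)
  have a4 : IsOpen {y : ℝ × E3 | 0 < DF y.1 (y.2 0)} :=
    isOpen_lt continuous_const (by unfold DF; fun_prop)
  exact a1.inter (a2.inter (a3.inter a4))

lemma contDiff_aa (e : ℝ) : ContDiff ℝ ∞ (aa e) := by
  have h0 := contDiff_m0
  have h1 := contDiff_nu
  unfold aa; fun_prop

lemma aa_mu (e : ℝ) (y : ℝ × E3) : aa e y * Ex.mu y.1 = ZF e y.1 (y.2 2) := by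
  unfold aa ZF Ex.mu
  rw [show 2 * e * m0 y.1 = 2 * e * (y.1 * (1 - y.1) * nu y.1) by rw [← m0_eq]]
  ring

lemma aa_pos {e : ℝ} (he : 0 < e) {y : ℝ × E3} (hy : y ∈ Om) : 0 < aa e y :=
  mul_pos (mul_pos (by linarith) (nu_pos _)) hy.2.1

lemma cd_G1 (e : ℝ) {y : ℝ × E3} (hy : y ∈ Om) :
    ContDiffAt ℝ ∞ (fun y : ℝ × E3 => G1F e y.1 (y.2 0) (y.2 1) (y.2 2)) y := by
  have h0 := contDiff_m0
  have h1 := contDiff_m1
  have h2 := contDiff_m2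
  have h3 := contDiff_m3
  have a := hy.1.ne'
  unfold wF at a
  unfold G1F ZF A1F w1F wF
  fun_prop (disch := assumption)

lemma cd_G2 (e : ℝ) {y : ℝ × E3} (hy : y ∈ Om) :
    ContDiffAt ℝ ∞ (fun y : ℝ × E3 => G2F e y.1 (y.2 0) (y.2 1) (y.2 2)) y := by
  have h0 := contDiff_m0
  have h1 := contDiff_m1
  have h2 := contDiff_m2
  have h3 := contDiff_m3
  have h4 := contDiff_sig
  have a := hy.2.2.1.ne'
  unfold G2F ZF A2F x1F zeF
  fun_prop (disch := assumption)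

lemma cd_bet (e : ℝ) {y : ℝ × E3} (hy : y ∈ Om) : ContDiffAt ℝ ∞ (bet e) y := by
  have h1 := contDiff_m1
  have h2 := contDiff_m2
  have g1 := cd_G1 e hy
  have g2 := cd_G2 e hy
  have a := hy.2.2.2.ne'
  unfold bet betF
  refine ((g1.mul (by fun_prop)).sub (g2.mul (by fun_prop))).div ?_ a
  unfold DF; fun_prop

lemma cd_ff (e : ℝ) {y : ℝ × E3} (hy : y ∈ Om) : ContDiffAt ℝ ∞ (ff e) y := by
  have h1 := contDiff_m1
  have h2 := contDiff_m2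
  have g1 := cd_G1 e hy
  have g2 := cd_G2 e hy
  have g3 := cd_bet e hy
  have a := hy.2.2.2.ne'
  unfold ff fF
  refine (g3.mul (by fun_prop)).sub ((((ContDiffAt.mul (by fun_prop) g2)).sub
    (ContDiffAt.mul (by fun_prop) g1)).div ?_ a)
  unfold DF; fun_prop

lemma cd_vec {F : Type*} [NormedAddCommGroup F] [NormedSpace ℝ F] {a b c : F → ℝ} {z : F}
    (ha : ContDiffAt ℝ ∞ a z) (hb : ContDiffAt ℝ ∞ b z) (hc : ContDiffAt ℝ ∞ c z) :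
    ContDiffAt ℝ ∞ (fun z => (!₂[a z, b z, c z] : E3)) z := by
  refine contDiffAt_euclidean.2 fun i => ?_
  fin_cases i
  · exact ha
  · exact hb
  · exact hc

lemma cd_Dt {F : ℝ × E3 → ℝ} {z : (ℝ × E3) × E3} (hF : ContDiffAt ℝ ∞ F z.1) :
    ContDiffAt ℝ ∞ (fun z : (ℝ × E3) × E3 => Dt F z.1 z.2) z := by
  unfold Dt
  refine ContDiffAt.clm_apply ((hF.fderiv_right (m := ∞) le_rfl).comp z contDiffAt_fst) ?_
  exact contDiffAt_const.prodMk (cd_vec (by fun_prop) (by fun_prop) (by fun_prop))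

/-- directional derivative along a line. -/
lemma fderiv_eq_of_line {F : ℝ × E3 → ℝ} {y v : ℝ × E3} {d : ℝ} (hF : DifferentiableAt ℝ F y)
    (h : HasDerivAt (fun s : ℝ => F (y + s • v)) d 0) : fderiv ℝ F y v = d := by
  have h1 : HasDerivAt (fun s : ℝ => y + s • v) v 0 := by
    simpa using ((hasDerivAt_id (0 : ℝ)).smul_const v).const_add y
  have h2 : HasFDerivAt F (fderiv ℝ F y) (y + (0 : ℝ) • v) := by simpa using hF.hasFDerivAt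
  exact (h2.comp_hasDerivAt (0 : ℝ) h1).unique h

lemma bet_left (e : ℝ) {y : ℝ × E3} (h : y.1 < 1 / 3) :
    bet e y = 1 + 2 * e * (1 - y.1 * y.2 2) := by
  simp only [bet, betF, G2F, DF, A2F, x1F, zeF, m0_left h.le, m1_left h, m2_left h, m3_left h,
    sig_left h]
  ring

lemma bet_right (e : ℝ) {y : ℝ × E3} (h : 2 / 3 < y.1) :
    bet e y = -(1 + 2 * e * (1 - (1 - y.1) * y.2 2)) := by
  simp only [bet, betF, G2F, DF, A2F, x1F, zeF, m0_right h.le, m1_right h, m2_right h, m3_right h,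
    sig_right h]
  ring

lemma ff_left (e : ℝ) {y : ℝ × E3} (h : y.1 < 1 / 3) :
    ff e y = (1 + 2 * e * (1 - y.1 * y.2 2)) * (1 + y.2 1) -
      2 * e * y.1 * (1 - y.1 * y.2 2) * (1 + y.2 1) ^ 2 / (y.1 + y.2 0) - 1 := by
  have hb := bet_left e h
  unfold bet at hb
  simp only [ff, fF, hb, G1F, G2F, DF, A1F, A2F, x1F, zeF, ZF, w1F, wF, m0_left h.le, m1_left h,
    m2_left h, m3_left h, sig_left h]
  ring

lemma ff_right (e : ℝ) {y : ℝ × E3} (h : 2 / 3 < y.1) :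
    ff e y = (1 + 2 * e * (1 - (1 - y.1) * y.2 2)) * (1 - y.2 1) +
      2 * e * (1 - y.1) * (1 - (1 - y.1) * y.2 2) * (1 - y.2 1) ^ 2 / (y.1 - y.2 0) + 1 := by
  have hb := bet_right e h
  unfold bet at hb
  simp only [ff, fF, hb, G1F, G2F, DF, A1F, A2F, x1F, zeF, ZF, w1F, wF, m0_right h.le, m1_right h,
    m2_right h, m3_right h, sig_right h]
  ring

end Crest.Agent.N207.S.Ga
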