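import Crest.Agent.N207.S.Ga.Top
import Crest.Agent.N207.S.Top.Defs

/-!
Row 207, S0320, block GAUGE (helper66): the statements `Top.GaNear`, `Top.GaFin`.
-/

set_option autoImplicit false

open Set Filter
open scoped Topology ContDiff

noncomputable section
namespace Crest.Agent.N207.S.Ga

lemma wT_eq (U : ℝ → ℝ → E3) : Top.wT U = wj U := by
  funext j t x
  rcases j with _ | _ | j <;> simp [Top.wT, wj, Top.idS, idj, add_comm]

theorem gaNear : Top.GaNear := by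
  intro e b h t U ht hU hc
  rw [wT_eq]
  exact ⟨fun s hs x hx j => peq ht hU hc j s hs x hx,
    xsol ht hU (peq0 ht hU hc) (by norm_num)⟩

theorem gaFin : Top.GaFin := by
  intro q b h T X U _ hT hX hX' hU hc ⟨C1, hC1⟩ ⟨K, C, hK, hKO, hC⟩ htip
  rw [wT_eq] at hC1
  refine ⟨0, topStmt q b _ h T X U rfl hT hX (by linarith) hU hc
    ⟨C1, fun t ht => hC1 t ⟨ht.1.le, ht.2⟩⟩ ⟨K, C, hK, hKO, fun t ht x hx => ?_⟩ ?_⟩
  · obtain ⟨a, c⟩ := hC t ⟨ht.1.le, ht.2⟩ x hx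
    exact ⟨a, (c 2 le_rfl).1, (c 1 one_le_two).2⟩
  · simpa [wj_zero] using htip

end Crest.Agent.N207.S.Ga
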