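import Crest.Agent.N207.S.Ga.Sys
import Crest.Agent.N207.S.In.Defs

/-!
Row 207, S0320, block GAUGE (helper66): jets of smooth functions on a rectangle.
-/

set_option autoImplicit false

open Set Filter
open scoped Topology ContDiff

noncomputable section
namespace Crest.Agent.N207.S.Ga

/-- directional derivative within `R`. -/
def dd (R : Set (ℝ × ℝ)) (v : ℝ × ℝ) (F : ℝ × ℝ → ℝ) (p : ℝ × ℝ) : ℝ := fderivWithin ℝ F R p v

section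
variable {t0 t1 : ℝ} {F G : ℝ × ℝ → ℝ}

lemma ud_rect (h : t0 < t1) : UniqueDiffOn ℝ (Icc t0 t1 ×ˢ Icc (0 : ℝ) 1) :=
  (uniqueDiffOn_Icc h).prod (uniqueDiffOn_Icc zero_lt_one)

lemma cd_dd {R : Set (ℝ × ℝ)} (hR : UniqueDiffOn ℝ R) (hF : ContDiffOn ℝ ∞ F R) (v : ℝ × ℝ) :
    ContDiffOn ℝ ∞ (dd R v F) R :=
  (hF.fderivWithin hR (m := ∞) le_rfl).clm_apply contDiffOn_const

lemma cd_iter {R : Set (ℝ × ℝ)} (hR : UniqueDiffOn ℝ R) (hF : ContDiffOn ℝ ∞ F R) (v : ℝ × ℝ)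
    (j : ℕ) : ContDiffOn ℝ ∞ ((dd R v)^[j] F) R := by
  induction j with
  | zero => exact hF
  | succ j ih => rw [Function.iterate_succ_apply']; exact cd_dd hR ih v

lemma dd_congr {R : Set (ℝ × ℝ)} (h : EqOn F G R) (v : ℝ × ℝ) : EqOn (dd R v F) (dd R v G) R :=
  fun _ hp => by unfold dd; rw [fderivWithin_congr h (h hp)]

lemma hd_x (hF : ContDiffOn ℝ ∞ F (Icc t0 t1 ×ˢ Icc 0 1)) {t x : ℝ} (ht : t ∈ Icc t0 t1)
    (hx : x ∈ Icc (0 : ℝ) 1) : HasDerivWithinAt (fun y => F (t, y))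
      (dd (Icc t0 t1 ×ˢ Icc 0 1) (0, 1) F (t, x)) (Icc 0 1) x := by
  have h1 := (hF.differentiableOn (by simp) (t, x) ⟨ht, hx⟩).hasFDerivWithinAt
  have h2 : HasDerivWithinAt (fun y : ℝ => ((t, y) : ℝ × ℝ)) (0, 1) (Icc 0 1) x :=
    ((hasDerivAt_const x t).prodMk (hasDerivAt_id x)).hasDerivWithinAt
  exact h1.comp_hasDerivWithinAt x h2 fun y hy => ⟨ht, hy⟩

lemma hd_t (hF : ContDiffOn ℝ ∞ F (Icc t0 t1 ×ˢ Icc 0 1)) {t x : ℝ} (ht : t ∈ Icc t0 t1)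
    (hx : x ∈ Icc (0 : ℝ) 1) : HasDerivWithinAt (fun s => F (s, x))
      (dd (Icc t0 t1 ×ˢ Icc 0 1) (1, 0) F (t, x)) (Icc t0 t1) t := by
  have h1 := (hF.differentiableOn (by simp) (t, x) ⟨ht, hx⟩).hasFDerivWithinAt
  have h2 : HasDerivWithinAt (fun s : ℝ => ((s, x) : ℝ × ℝ)) (1, 0) (Icc t0 t1) t :=
    ((hasDerivAt_id t).prodMk (hasDerivAt_const t x)).hasDerivWithinAt
  exact HasFDerivWithinAt.comp_hasDerivWithinAt (f := fun s : ℝ => ((s, x) : ℝ × ℝ)) t h1 h2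
    fun y hy => ⟨hy, hx⟩

lemma dd_comm (h : t0 < t1) (hF : ContDiffOn ℝ ∞ F (Icc t0 t1 ×ˢ Icc 0 1)) (v w : ℝ × ℝ) :
    EqOn (dd (Icc t0 t1 ×ˢ Icc 0 1) v (dd (Icc t0 t1 ×ˢ Icc 0 1) w F))
      (dd (Icc t0 t1 ×ˢ Icc 0 1) w (dd (Icc t0 t1 ×ˢ Icc 0 1) v F)) (Icc t0 t1 ×ˢ Icc 0 1) := by
  intro p hp
  have hR := ud_rect h
  have h1 := (hF.fderivWithin hR (m := ∞) le_rfl).differentiableOn (by simp) p hp
  have h2 : p ∈ closure (interior (Icc t0 t1 ×ˢ Icc (0 : ℝ) 1)) := by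
    rw [interior_prod_eq, closure_prod_eq, interior_Icc, interior_Icc, closure_Ioo h.ne,
      closure_Ioo zero_ne_one]
    exact hp
  have h3 := (hF p hp).isSymmSndFDerivWithinAt
    (by rw [minSmoothness_of_isRCLikeNormedField]; exact WithTop.coe_le_coe.2 le_top) hR h2 hp
  unfold dd
  rw [fderivWithin_clm_apply (hR p hp) h1 (differentiableWithinAt_const _),
    fderivWithin_clm_apply (hR p hp) h1 (differentiableWithinAt_const _)]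
  simpa using h3 v w

lemma dd_iter_comm (h : t0 < t1) (hF : ContDiffOn ℝ ∞ F (Icc t0 t1 ×ˢ Icc 0 1)) (v w : ℝ × ℝ)
    (j : ℕ) : EqOn (dd (Icc t0 t1 ×ˢ Icc 0 1) v ((dd (Icc t0 t1 ×ˢ Icc 0 1) w)^[j] F))
      ((dd (Icc t0 t1 ×ˢ Icc 0 1) w)^[j] (dd (Icc t0 t1 ×ˢ Icc 0 1) v F))
      (Icc t0 t1 ×ˢ Icc 0 1) := by
  induction j with
  | zero => exact fun _ _ => rfl
  | succ j ih =>
    rw [Function.iterate_succ_apply', Function.iterate_succ_apply']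
    exact (dd_comm h (cd_iter (ud_rect h) hF w j) v w).trans (dd_congr ih w)

lemma jet_eq (h : t0 < t1) (hF : ContDiffOn ℝ ∞ F (Icc t0 t1 ×ˢ Icc 0 1)) (j : ℕ) {t x : ℝ}
    (ht : t ∈ Icc t0 t1) (hx : x ∈ Icc (0 : ℝ) 1) :
    Ex.jet j (fun y => F (t, y)) x = (dd (Icc t0 t1 ×ˢ Icc 0 1) (0, 1))^[j] F (t, x) := by
  induction j generalizing x with
  | zero => rfl
  | succ j ih =>
    rw [Function.iterate_succ_apply', Ex.jet, iteratedDerivWithin_succ,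
      derivWithin_congr (fun y hy => ih hy) (ih hx)]
    exact (hd_x (cd_iter (ud_rect h) hF _ j) ht hx).derivWithin (uniqueDiffOn_Icc zero_lt_one x hx)

end

/-- A smooth function with its time derivative gives a jet. -/
theorem jet_of {t0 t1 : ℝ} (h : t0 < t1) {f g : ℝ → ℝ → ℝ}
    (hf : ContDiffOn ℝ ∞ (fun p : ℝ × ℝ => f p.1 p.2) (Icc t0 t1 ×ˢ Icc 0 1))
    (hg : ∀ t ∈ Icc t0 t1, ∀ x ∈ Icc (0 : ℝ) 1,
      HasDerivWithinAt (fun s => f s x) (g t x) (Icc t0 t1) t) :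
    Jet t0 t1 1 (fun j t x => Ex.jet j (f t) x) (fun j t x => Ex.jet j (g t) x) ∧
    ∀ j, ContDiffOn ℝ ∞ (fun p : ℝ × ℝ => Ex.jet j (f p.1) p.2) (Icc t0 t1 ×ˢ Icc 0 1) := by
  have hR := ud_rect h
  set R := Icc t0 t1 ×ˢ Icc (0 : ℝ) 1 with hRdef
  set F := fun p : ℝ × ℝ => f p.1 p.2 with hF
  have hG := cd_dd hR hf (1, 0)
  have eg : ∀ t ∈ Icc t0 t1, ∀ x ∈ Icc (0 : ℝ) 1, g t x = dd R (1, 0) F (t, x) :=
    fun t ht x hx => (uniqueDiffOn_Icc h t ht).eq_deriv _ (hg t ht x hx) (hd_t hf ht hx)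
  have e1 : ∀ j, ∀ t ∈ Icc t0 t1, ∀ x ∈ Icc (0 : ℝ) 1,
      Ex.jet j (f t) x = (dd R (0, 1))^[j] F (t, x) := fun j t ht x hx => jet_eq h hf j ht hx
  have e2 : ∀ j, ∀ t ∈ Icc t0 t1, ∀ x ∈ Icc (0 : ℝ) 1,
      Ex.jet j (g t) x = (dd R (0, 1))^[j] (dd R (1, 0) F) (t, x) := fun j t ht x hx => by
    rw [← jet_eq h hG j ht hx]
    exact iteratedDerivWithin_congr (fun y hy => eg t ht y hy) hx
  have c1 : ∀ j, ContDiffOn ℝ ∞ (fun p : ℝ × ℝ => Ex.jet j (f p.1) p.2) R := fun j =>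
    (cd_iter hR hf _ j).congr fun p hp => e1 j p.1 hp.1 p.2 hp.2
  refine ⟨⟨fun j => (c1 j).continuousOn, fun j => ?_, fun j t x ht hx => ?_,
    fun j t x ht hx => ?_, fun j t x ht hx => ?_⟩, c1⟩
  · exact (cd_iter hR hG _ j).continuousOn.congr fun p hp => e2 j p.1 hp.1 p.2 hp.2
  · rw [e1 (j + 1) t ht x hx, Function.iterate_succ_apply']
    exact (hd_x (cd_iter hR hf _ j) ht hx).congr (fun y hy => e1 j t ht y hy) (e1 j t ht x hx)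
  · rw [e2 (j + 1) t ht x hx, Function.iterate_succ_apply']
    exact (hd_x (cd_iter hR hG _ j) ht hx).congr (fun y hy => e2 j t ht y hy) (e2 j t ht x hx)
  · rw [e2 j t ht x hx, ← dd_iter_comm h hf (1, 0) (0, 1) j (show (t, x) ∈ R from ⟨ht, hx⟩)]
    exact (hd_t (cd_iter hR hf _ j) ht hx).congr (fun s hs => e1 j s hs x hx) (e1 j t ht x hx)

/-- jets of the `i`-th component. -/
def cj (U : ℝ → ℝ → E3) (i : Fin 3) (j : ℕ) (t x : ℝ) : ℝ := Ex.jet j (fun y => U t y i) x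

/-- jets of the time derivative of the `i`-th component. -/
def ct (S : Ex.Sys E3) (U : ℝ → ℝ → E3) (i : Fin 3) (j : ℕ) (t x : ℝ) : ℝ :=
  Ex.jet j (fun y => S.F (y, U t y) (Ex.jet 1 (U t) y) (Ex.jet 2 (U t) y) i) x

lemma cj_zero (U : ℝ → ℝ → E3) (i : Fin 3) (t x : ℝ) : cj U i 0 t x = U t x i := rfl

lemma ct_zero (S : Ex.Sys E3) (U : ℝ → ℝ → E3) (i : Fin 3) (t x : ℝ) :
    ct S U i 0 t x = S.F (x, U t x) (Ex.jet 1 (U t) x) (Ex.jet 2 (U t) x) i := rfl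

lemma jet_apply {f : ℝ → E3} (hf : ContDiffOn ℝ ∞ f (Icc 0 1)) (j : ℕ) {x : ℝ}
    (hx : x ∈ Icc (0 : ℝ) 1) (i : Fin 3) : Ex.jet j f x i = Ex.jet j (fun y => f y i) x := by
  have h := (EuclideanSpace.proj i : E3 →L[ℝ] ℝ).iteratedFDerivWithin_comp_left
    ((hf x hx).of_le (m := j) (by exact_mod_cast le_top)) (uniqueDiffOn_Icc zero_lt_one) hx le_rfl
  have h2 := congrArg (fun L => L fun _ => (1 : ℝ)) h
  exact h2.symm

variable {S : Ex.Sys E3} {t0 t1 : ℝ} {U : ℝ → ℝ → E3}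

lemma sol_slice (hU : Ex.IsSol S t0 t1 U) {t : ℝ} (ht : t ∈ Icc t0 t1) :
    ContDiffOn ℝ ∞ (U t) (Icc 0 1) :=
  hU.smooth.comp (f := fun y : ℝ => ((t, y) : ℝ × ℝ)) (by fun_prop) fun _ hy => ⟨ht, hy⟩

lemma sol_jet (hU : Ex.IsSol S t0 t1 U) (j : ℕ) {t x : ℝ} (ht : t ∈ Icc t0 t1)
    (hx : x ∈ Icc (0 : ℝ) 1) (i : Fin 3) : Ex.jet j (U t) x i = cj U i j t x :=
  jet_apply (sol_slice hU ht) j hx i

lemma jet_both (h : t0 < t1) (hU : Ex.IsSol S t0 t1 U) (i : Fin 3) :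
    Jet t0 t1 1 (cj U i) (ct S U i) ∧
    ∀ j, ContDiffOn ℝ ∞ (fun p : ℝ × ℝ => cj U i j p.1 p.2) (Icc t0 t1 ×ˢ Icc 0 1) :=
  jet_of h (f := fun t y => U t y i)
    (g := fun t y => S.F (y, U t y) (Ex.jet 1 (U t) y) (Ex.jet 2 (U t) y) i)
    ((EuclideanSpace.proj i : E3 →L[ℝ] ℝ).contDiff.comp_contDiffOn hU.smooth)
    fun t ht x hx => (EuclideanSpace.proj i : E3 →L[ℝ] ℝ).hasFDerivAt.comp_hasDerivWithinAt t
      (hU.eqn t ht x hx)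

/-- the components of a solution form jets. -/
theorem jet_sol (h : t0 < t1) (hU : Ex.IsSol S t0 t1 U) (i : Fin 3) :
    Jet t0 t1 1 (cj U i) (ct S U i) := (jet_both h hU i).1

theorem cd_cj (h : t0 < t1) (hU : Ex.IsSol S t0 t1 U) (i : Fin 3) (j : ℕ) :
    ContDiffOn ℝ ∞ (fun p : ℝ × ℝ => cj U i j p.1 p.2) (Icc t0 t1 ×ˢ Icc 0 1) :=
  (jet_both h hU i).2 j

end Crest.Agent.N207.S.Ga
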