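import Mathlib

/-!
Row 207, S0320, block GAUGE (helper66): the reference profile `m` (`m = x` for `x ≤ 1/3`,
`m = 1 - x` for `x ≥ 2/3`), `nu = m/(x(1-x))`, `sig = (1-m'²)/m`, and a patching lemma.
-/

set_option autoImplicit false

open Set Filter
open scoped Topology ContDiff

noncomputable section
namespace Crest.Agent.N207.S.Ga

/-- transition function. -/
def st (x : ℝ) : ℝ := Real.smoothTransition (3 * x - 1)

/-- the reference profile. -/
def m0 (x : ℝ) : ℝ := x + st x * (1 - 2 * x)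

def m1 : ℝ → ℝ := deriv m0
def m2 : ℝ → ℝ := deriv m1
def m3 : ℝ → ℝ := deriv m2

/-- `m/(x(1-x))`. -/
def nu (x : ℝ) : ℝ := (1 - st x) / (1 - x) + st x / x

/-- `(1-m'²)/m`. -/
def sig (x : ℝ) : ℝ := (1 - m1 x ^ 2) / m0 x

lemma st_left {x : ℝ} (h : x ≤ 1 / 3) : st x = 0 :=
  Real.smoothTransition.zero_of_nonpos (by linarith)

lemma st_right {x : ℝ} (h : 2 / 3 ≤ x) : st x = 1 :=
  Real.smoothTransition.one_of_one_le (by linarith)

lemma st_nonneg (x : ℝ) : 0 ≤ st x := Real.smoothTransition.nonneg _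
lemma st_le_one (x : ℝ) : st x ≤ 1 := Real.smoothTransition.le_one _

lemma contDiff_st : ContDiff ℝ ∞ st :=
  Real.smoothTransition.contDiff.comp (by fun_prop)

lemma contDiff_m0 : ContDiff ℝ ∞ m0 := by
  have := contDiff_st
  unfold m0; fun_prop

lemma contDiff_m1 : ContDiff ℝ ∞ m1 := contDiff_m0.deriv' (n := ∞)
lemma contDiff_m2 : ContDiff ℝ ∞ m2 := contDiff_m1.deriv' (n := ∞)
lemma contDiff_m3 : ContDiff ℝ ∞ m3 := contDiff_m2.deriv' (n := ∞)

lemma hd_m0 (x : ℝ) : HasDerivAt m0 (m1 x) x :=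
  (contDiff_m0.differentiable (by simp) x).hasDerivAt
lemma hd_m1 (x : ℝ) : HasDerivAt m1 (m2 x) x :=
  (contDiff_m1.differentiable (by simp) x).hasDerivAt
lemma hd_m2 (x : ℝ) : HasDerivAt m2 (m3 x) x :=
  (contDiff_m2.differentiable (by simp) x).hasDerivAt

lemma m0_left {x : ℝ} (h : x ≤ 1 / 3) : m0 x = x := by simp [m0, st_left h]
lemma m0_right {x : ℝ} (h : 2 / 3 ≤ x) : m0 x = 1 - x := by simp only [m0, st_right h]; ring

lemma deriv_of_Iio {f g : ℝ → ℝ} {c x d : ℝ} (h : ∀ y, y < c → f y = g y) (hx : x < c)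
    (hg : HasDerivAt g d x) : deriv f x = d := by
  have : f =ᶠ[𝓝 x] g := mem_of_superset (Iio_mem_nhds hx) h
  rw [this.deriv_eq, hg.deriv]
  
lemma deriv_of_Ioi {f g : ℝ → ℝ} {c x d : ℝ} (h : ∀ y, c < y → f y = g y) (hx : c < x)
    (hg : HasDerivAt g d x) : deriv f x = d := by
  have : f =ᶠ[𝓝 x] g := mem_of_superset (Ioi_mem_nhds hx) h
  rw [this.deriv_eq, hg.deriv]

lemma m1_left {x : ℝ} (h : x < 1 / 3) : m1 x = 1 :=
  deriv_of_Iio (fun _ hy => m0_left hy.le) h (hasDerivAt_id x)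
lemma m2_left {x : ℝ} (h : x < 1 / 3) : m2 x = 0 :=
  deriv_of_Iio (fun _ hy => m1_left hy) h (hasDerivAt_const x 1)
lemma m3_left {x : ℝ} (h : x < 1 / 3) : m3 x = 0 :=
  deriv_of_Iio (fun _ hy => m2_left hy) h (hasDerivAt_const x 0)
lemma m1_right {x : ℝ} (h : 2 / 3 < x) : m1 x = -1 :=
  deriv_of_Ioi (fun _ hy => m0_right hy.le) h ((hasDerivAt_id x).const_sub 1)
lemma m2_right {x : ℝ} (h : 2 / 3 < x) : m2 x = 0 :=
  deriv_of_Ioi (fun _ hy => m1_right hy) h (hasDerivAt_const x (-1))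
lemma m3_right {x : ℝ} (h : 2 / 3 < x) : m3 x = 0 :=
  deriv_of_Ioi (fun _ hy => m2_right hy) h (hasDerivAt_const x 0)

lemma sig_left {x : ℝ} (h : x < 1 / 3) : sig x = 0 := by simp [sig, m1_left h]
lemma sig_right {x : ℝ} (h : 2 / 3 < x) : sig x = 0 := by simp [sig, m1_right h]
lemma nu_left {x : ℝ} (h : x ≤ 1 / 3) : nu x = 1 / (1 - x) := by simp [nu, st_left h]
lemma nu_right {x : ℝ} (h : 2 / 3 ≤ x) : nu x = 1 / x := by simp [nu, st_right h]

lemma m0_pos {x : ℝ} (h0 : 0 < x) (h1 : x < 1) : 0 < m0 x := by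
  have a := st_nonneg x
  have b := st_le_one x
  have e : m0 x = (1 - st x) * x + st x * (1 - x) := by unfold m0; ring
  rw [e]
  rcases b.eq_or_lt with b | b
  · rw [b]; linarith
  · have := mul_pos (sub_pos.2 b) h0
    have := mul_nonneg a (sub_pos.2 h1).le
    linarith

lemma m0_nonneg {x : ℝ} (h0 : 0 ≤ x) (h1 : x ≤ 1) : 0 ≤ m0 x := by
  have a := st_nonneg x
  have b := st_le_one x
  have e : m0 x = (1 - st x) * x + st x * (1 - x) := by unfold m0; ring
  rw [e]
  exact add_nonneg (mul_nonneg (sub_nonneg.2 b) h0) (mul_nonneg a (sub_nonneg.2 h1))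

lemma nu_pos (x : ℝ) : 0 < nu x := by
  rcases le_or_gt x (1 / 3) with h | h
  · rw [nu_left h]; exact one_div_pos.2 (by linarith)
  rcases le_or_gt (2 / 3) x with h' | h'
  · rw [nu_right h']; exact one_div_pos.2 (by linarith)
  have a := st_nonneg x
  have b := st_le_one x
  unfold nu
  rcases b.eq_or_lt with b | b
  · rw [b]; simp; linarith
  · have := div_pos (sub_pos.2 b) (show 0 < 1 - x by linarith)
    have := div_nonneg a (show 0 ≤ x by linarith)
    linarith

lemma m0_eq (x : ℝ) : m0 x = x * (1 - x) * nu x := by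
  rcases le_or_gt x (1 / 3) with h | h
  · rw [nu_left h, m0_left h]
    have : (1 - x) ≠ 0 := by linarith
    field_simp
  rcases le_or_gt (2 / 3) x with h' | h'
  · rw [nu_right h', m0_right h']
    have : x ≠ 0 := by linarith
    field_simp
  have : (1 - x) ≠ 0 := by linarith
  have : x ≠ 0 := by linarith
  unfold nu m0
  field_simp
  ring

lemma sig_mul (x : ℝ) : sig x * m0 x = 1 - m1 x ^ 2 := by
  rcases lt_or_ge x (1 / 3) with h | h
  · rw [sig_left h, m1_left h]; ring
  rcases lt_or_ge (2 / 3) x with h' | h'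
  · rw [sig_right h', m1_right h']; ring
  have := m0_pos (x := x) (by linarith) (by linarith)
  unfold sig
  field_simp

/-- a function that is smooth on the three standard pieces is smooth. -/
lemma contDiff_of_three {f A0 A1 : ℝ → ℝ} (h0 : ∀ x, x < 1 / 3 → ContDiffAt ℝ ∞ A0 x)
    (hm : ∀ x, 0 < x → x < 1 → ContDiffAt ℝ ∞ f x) (h1 : ∀ x, 2 / 3 < x → ContDiffAt ℝ ∞ A1 x)
    (e0 : ∀ x, x < 1 / 3 → f x = A0 x) (e1 : ∀ x, 2 / 3 < x → f x = A1 x) : ContDiff ℝ ∞ f := by
  refine contDiff_iff_contDiffAt.2 fun x => ?_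
  rcases lt_or_ge x (1 / 3) with h | h
  · exact (h0 x h).congr_of_eventuallyEq (mem_of_superset (Iio_mem_nhds h) e0)
  rcases lt_or_ge (2 / 3) x with h' | h'
  · exact (h1 x h').congr_of_eventuallyEq (mem_of_superset (Ioi_mem_nhds h') e1)
  exact hm x (by linarith) (by linarith)

lemma contDiff_nu : ContDiff ℝ ∞ nu := by
  refine contDiff_of_three (A0 := fun x => 1 / (1 - x)) (A1 := fun x => 1 / x) ?_ ?_ ?_
    (fun x h => nu_left h.le) (fun x h => nu_right h.le)
  · intro x h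
    exact contDiffAt_const.div (by fun_prop) (by linarith)
  · intro x h h'
    have := contDiff_st.contDiffAt (x := x)
    exact ((contDiffAt_const.sub this).div (by fun_prop) (by linarith)).add
      (this.div (by fun_prop) h.ne')
  · intro x h
    exact contDiffAt_const.div (by fun_prop) (by linarith)

lemma contDiff_sig : ContDiff ℝ ∞ sig := by
  refine contDiff_of_three (A0 := fun _ => 0) (A1 := fun _ => 0) (fun _ _ => contDiffAt_const) ?_
    (fun _ _ => contDiffAt_const) (fun x h => sig_left h) (fun x h => sig_right h)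
  intro x h h'
  exact (contDiffAt_const.sub (contDiff_m1.contDiffAt.pow 2)).div contDiff_m0.contDiffAt
    (m0_pos h h').ne'

section Patch
variable {F : Type*} [NormedAddCommGroup F] [NormedSpace ℝ F]

/-- patch three formulas along the coordinate `c`. -/
def patch (c : F → ℝ) (A0 Am A1 : F → ℝ) (p : F) : ℝ :=
  if c p < 1 / 4 then A0 p else if 3 / 4 < c p then A1 p else Am p

/-- the three formulas agree on the overlaps inside `S`. -/
structure Agree (c : F → ℝ) (S : Set F) (A0 Am A1 : F → ℝ) : Prop where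
  e0 : ∀ p ∈ S, 0 < c p → c p < 1 / 3 → A0 p = Am p
  e1 : ∀ p ∈ S, 2 / 3 < c p → c p < 1 → A1 p = Am p

variable {c : F → ℝ} {S : Set F} {A0 Am A1 : F → ℝ}

omit [NormedAddCommGroup F] [NormedSpace ℝ F] in
lemma patch_left (h : Agree c S A0 Am A1) {p : F} (hp : p ∈ S) (hc : c p < 1 / 3) :
    patch c A0 Am A1 p = A0 p := by
  unfold patch
  split_ifs with h1 h2
  · rfl
  · linarith
  · exact (h.e0 p hp (by linarith) hc).symm

omit [NormedAddCommGroup F] [NormedSpace ℝ F] in
lemma patch_right (h : Agree c S A0 Am A1) {p : F} (hp : p ∈ S) (hc : 2 / 3 < c p) :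
    patch c A0 Am A1 p = A1 p := by
  unfold patch
  split_ifs with h1 h2
  · linarith
  · rfl
  · exact (h.e1 p hp hc (by linarith)).symm

omit [NormedAddCommGroup F] [NormedSpace ℝ F] in
lemma patch_mid (h : Agree c S A0 Am A1) {p : F} (hp : p ∈ S) (h0 : 0 < c p) (h1 : c p < 1) :
    patch c A0 Am A1 p = Am p := by
  unfold patch
  split_ifs with h2 h3
  · exact h.e0 p hp h0 (by linarith)
  · exact h.e1 p hp (by linarith) h1
  · rfl

lemma contDiffOn_patch (hc : Continuous c) (hS : IsOpen S) (h : Agree c S A0 Am A1)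
    (h0 : ∀ p ∈ S, c p < 1 / 3 → ContDiffAt ℝ ∞ A0 p)
    (hm : ∀ p ∈ S, 0 < c p → c p < 1 → ContDiffAt ℝ ∞ Am p)
    (h1 : ∀ p ∈ S, 2 / 3 < c p → ContDiffAt ℝ ∞ A1 p) {p : F} (hp : p ∈ S) :
    ContDiffAt ℝ ∞ (patch c A0 Am A1) p := by
  rcases lt_or_ge (c p) (1 / 3) with a | a
  · refine (h0 p hp a).congr_of_eventuallyEq ?_
    filter_upwards [hS.mem_nhds hp, hc.continuousAt.eventually (gt_mem_nhds a)] with y hy hy'
    exact patch_left h hy hy'
  rcases lt_or_ge (2 / 3) (c p) with b | b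
  · refine (h1 p hp b).congr_of_eventuallyEq ?_
    filter_upwards [hS.mem_nhds hp, hc.continuousAt.eventually (lt_mem_nhds b)] with y hy hy'
    exact patch_right h hy hy'
  · refine (hm p hp (by linarith) (by linarith)).congr_of_eventuallyEq ?_
    filter_upwards [hS.mem_nhds hp,
      hc.continuousAt.eventually (lt_mem_nhds (show 0 < c p by linarith)),
      hc.continuousAt.eventually (gt_mem_nhds (show c p < 1 by linarith))] with y hy hy' hy''
    exact patch_mid h hy hy' hy''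

end Patch

end Crest.Agent.N207.S.Ga
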