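import Crest.Agent.N207.S.Ga.Jet
import Crest.Agent.N207.S.MP

/-!
Row 207, S0320, block GAUGE (helper66): the relation `P = η'` is preserved.
-/

set_option autoImplicit false

open Set Filter
open scoped Topology ContDiff

noncomputable section
namespace Crest.Agent.N207.S.Ga

lemma past_of {f : ℝ → ℝ} {d t0 t1 t : ℝ} (h : HasDerivWithinAt f d (Icc t0 t1) t) (h0 : t0 < t)
    (h1 : t ≤ t1) : HasDerivWithinAt f d (Iic t) t :=
  h.mono_of_mem_nhdsWithin (mem_of_superset (Icc_mem_nhdsLE h0) (Icc_subset_Icc_right h1))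

/-- linear maximum principle on `[0,1]` with degenerate ends. -/
theorem lin_nonpos {t0 t1 K : ℝ} {u ut ux uxx Z B C : ℝ → ℝ → ℝ}
    (hc : ContinuousOn (fun p : ℝ × ℝ => u p.1 p.2) (Icc t0 t1 ×ˢ Icc 0 1))
    (ht : ∀ t ∈ Icc t0 t1, ∀ x ∈ Icc (0 : ℝ) 1,
      HasDerivWithinAt (fun s => u s x) (ut t x) (Icc t0 t1) t)
    (hx : ∀ t ∈ Icc t0 t1, ∀ x ∈ Icc (0 : ℝ) 1, HasDerivWithinAt (u t) (ux t x) (Icc 0 1) x)
    (hxx : ∀ t ∈ Icc t0 t1, ∀ x ∈ Icc (0 : ℝ) 1, HasDerivWithinAt (ux t) (uxx t x) (Icc 0 1) x)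
    (he : ∀ t ∈ Icc t0 t1, ∀ x ∈ Icc (0 : ℝ) 1,
      ut t x = Z t x * uxx t x + B t x * ux t x + C t x * u t x)
    (hZ : ∀ t ∈ Icc t0 t1, ∀ x ∈ Icc (0 : ℝ) 1, 0 ≤ Z t x)
    (hC : ∀ t ∈ Icc t0 t1, ∀ x ∈ Icc (0 : ℝ) 1, C t x ≤ K)
    (h0 : ∀ t ∈ Icc t0 t1, Z t 0 = 0 ∧ 0 ≤ B t 0) (h1 : ∀ t ∈ Icc t0 t1, Z t 1 = 0 ∧ B t 1 ≤ 0)
    (hi : ∀ x ∈ Icc (0 : ℝ) 1, u t0 x ≤ 0) :
    ∀ t ∈ Icc t0 t1, ∀ x ∈ Icc (0 : ℝ) 1, u t x ≤ 0 := by
  intro t htt x hxx'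
  have key : ∀ ε : ℝ, 0 < ε → u t x - ε * Real.exp ((K + 1) * t) < 0 := by
    intro ε hε
    have hp : ∀ s : ℝ, 0 < ε * Real.exp ((K + 1) * s) := fun s => by positivity
    have fin : ∀ s ∈ Icc t0 t1, ∀ y ∈ Icc (0 : ℝ) 1, u s y - ε * Real.exp ((K + 1) * s) = 0 →
        0 ≤ ut s y - ε * (Real.exp ((K + 1) * s) * (K + 1)) →
        Z s y * uxx s y + B s y * ux s y ≤ 0 → False := by
      intro s hs y hy a b c
      rw [he s hs y hy] at b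
      have := mul_le_mul_of_nonneg_right (hC s hs y hy) (hp s).le
      rw [sub_eq_zero] at a
      rw [a] at b
      nlinarith [hp s]
    refine MP.mp_family_both (ι := Unit) (t0 := t0) (t1 := t1) zero_lt_one
      (fun _ s y => u s y - ε * Real.exp ((K + 1) * s))
      (fun _ s y => ut s y - ε * (Real.exp ((K + 1) * s) * (K + 1))) (fun _ => ux) (fun _ => uxx)
      (fun _ => hc.sub (by fun_prop)) ?_ ?_ ?_ ?_ ?_ ?_ ?_ () t x htt.1 htt.2 hxx'.1 hxx'.2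
    · intro _ s y a b c d
      refine (past_of (ht s ⟨a.le, b⟩ y ⟨c, d⟩) a b).sub (HasDerivAt.hasDerivWithinAt ?_)
      simpa using (((hasDerivAt_id s).const_mul (K + 1)).exp).const_mul ε
    · intro _ s y a b c d
      exact (hx s ⟨a.le, b⟩ y ⟨c, d⟩).sub_const _
    · intro _ s y a b c d
      exact (hxx s ⟨a.le, b⟩ y ⟨c.le, d.le⟩).hasDerivAt (Icc_mem_nhds c d)
    · intro _ y a b
      linarith [hi y ⟨a, b⟩, hp t0]
    · intro _ s y a b c d _ e f g h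
      refine fin s ⟨a.le, b⟩ y ⟨c.le, d.le⟩ e f ?_
      rw [g, mul_zero, add_zero]
      exact mul_nonpos_of_nonneg_of_nonpos (hZ s ⟨a.le, b⟩ y ⟨c.le, d.le⟩) h
    · intro _ s a b _ e f g
      refine fin s ⟨a.le, b⟩ 0 ⟨le_rfl, zero_le_one⟩ e f ?_
      rw [(h0 s ⟨a.le, b⟩).1, zero_mul, zero_add]
      exact mul_nonpos_of_nonneg_of_nonpos (h0 s ⟨a.le, b⟩).2 g
    · intro _ s a b _ e f g
      refine fin s ⟨a.le, b⟩ 1 ⟨zero_le_one, le_rfl⟩ e f ?_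
      rw [(h1 s ⟨a.le, b⟩).1, zero_mul, zero_add]
      exact mul_nonpos_of_nonpos_of_nonneg (h1 s ⟨a.le, b⟩).2 g
  refine le_of_forall_pos_le_add fun δ hδ => ?_
  have hE := Real.exp_pos ((K + 1) * t)
  have := key (δ / Real.exp ((K + 1) * t)) (div_pos hδ hE)
  rw [div_mul_cancel₀ _ hE.ne'] at this
  linarith

section
variable {S : Ex.Sys E3} {t0 t1 : ℝ} {U : ℝ → ℝ → E3}

lemma hd_U (hU : Ex.IsSol S t0 t1 U) {t x : ℝ} (ht : t ∈ Icc t0 t1) (hx : x ∈ Icc (0 : ℝ) 1) :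
    HasDerivWithinAt (U t) (Ex.jet 1 (U t) x) (Icc 0 1) x := by
  rw [Ex.jet, iteratedDerivWithin_one]
  exact ((sol_slice hU ht).differentiableOn (by simp) x hx).hasDerivWithinAt

lemma hd_comp (hU : Ex.IsSol S t0 t1 U) {t x : ℝ} (ht : t ∈ Icc t0 t1) (hx : x ∈ Icc (0 : ℝ) 1)
    {F : ℝ × E3 → ℝ} (hF : DifferentiableAt ℝ F (x, U t x)) :
    HasDerivWithinAt (fun y => F (y, U t y)) (fderiv ℝ F (x, U t x) (1, Ex.jet 1 (U t) x))
      (Icc 0 1) x :=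
  HasFDerivAt.comp_hasDerivWithinAt (f := fun y : ℝ => ((y, U t y) : ℝ × E3)) x hF.hasFDerivAt
    ((hasDerivWithinAt_id x _).prodMk (hd_U hU ht hx))

end

variable {e : ℝ} {b : ℕ} {h : Rel e b} {t0 t1 : ℝ} {U : ℝ → ℝ → E3}

lemma ct0 (hU : Ex.IsSol (sys h) t0 t1 U) {t x : ℝ} (ht : t ∈ Icc t0 t1) (hx : x ∈ Icc (0 : ℝ) 1) :
    ct (sys h) U 0 0 t x = ZF e x (cj U 2 0 t x) * cj U 0 2 t x + ff e (x, U t x) +
      aa e (x, U t x) * b * (1 - 2 * x) * (cj U 0 1 t x - cj U 1 0 t x) := by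
  have := aa_mu e (x, U t x)
  rw [ct_zero, ← sol_jet hU 2 ht hx, ← sol_jet hU 1 ht hx, cj_zero, cj_zero]
  simp only at this
  simp [Ex.Sys.F, sys, Psi, this, add_assoc]

lemma ct1 (hU : Ex.IsSol (sys h) t0 t1 U) {t x : ℝ} (ht : t ∈ Icc t0 t1) (hx : x ∈ Icc (0 : ℝ) 1) :
    ct (sys h) U 1 0 t x = ZF e x (cj U 2 0 t x) * cj U 1 2 t x +
      Z1F e x (cj U 2 0 t x) (cj U 2 1 t x) * cj U 1 1 t x +
      Dt (ff e) (x, U t x) (Ex.jet 1 (U t) x) := by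
  have := aa_mu e (x, U t x)
  rw [ct_zero, ← sol_jet hU 2 ht hx, ← sol_jet hU 1 ht hx, ← sol_jet hU 1 ht hx, cj_zero]
  simp only at this
  simp [Ex.Sys.F, sys, Psi, this, add_assoc]

lemma ct2 (hU : Ex.IsSol (sys h) t0 t1 U) {t x : ℝ} (ht : t ∈ Icc t0 t1) (hx : x ∈ Icc (0 : ℝ) 1) :
    ct (sys h) U 2 0 t x = ZF e x (cj U 2 0 t x) * cj U 2 2 t x +
      gg e ((x, U t x), Ex.jet 1 (U t) x) := by
  have := aa_mu e (x, U t x)
  rw [ct_zero, ← sol_jet hU 2 ht hx, cj_zero]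
  simp only at this
  simp [Ex.Sys.F, sys, Psi, this]

lemma hd_ZF (e : ℝ) {k : ℝ → ℝ} {k1 x : ℝ} {s : Set ℝ} (hk : HasDerivWithinAt k k1 s x) :
    HasDerivWithinAt (fun y => ZF e y (k y)) (Z1F e x (k x) k1) s x := by
  have h0 := (hd_m0 x).hasDerivWithinAt (s := s)
  refine HasDerivWithinAt.congr_deriv ((h0.const_mul (2 * e)).mul ((h0.mul hk).const_sub 1)) ?_
  simp only [Z1F]
  ring

lemma ZF_nonneg (he : 0 < e) {y : ℝ × E3} (hy : y ∈ Om) (hx : y.1 ∈ Icc (0 : ℝ) 1) :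
    0 ≤ ZF e y.1 (y.2 2) :=
  mul_nonneg (mul_nonneg (by linarith) (m0_nonneg hx.1 hx.2)) hy.2.1.le

/-- `P = η'` is preserved. -/
theorem peq0 (h01 : t0 < t1) (hU : Ex.IsSol (sys h) t0 t1 U)
    (hi : ∀ x ∈ Icc (0 : ℝ) 1, U t0 x 1 = cj U 0 1 t0 x) :
    ∀ t ∈ Icc t0 t1, ∀ x ∈ Icc (0 : ℝ) 1, U t x 1 = cj U 0 1 t x := by
  have j0 := jet_sol h01 hU 0
  have j1 := jet_sol h01 hU 1
  have j2 := jet_sol h01 hU 2
  have he := h.1
  obtain ⟨c, hc⟩ : ∃ c : ℝ × E3 → ℝ, c = fun y => aa e y * b * (1 - 2 * y.1) := ⟨_, rfl⟩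
  have hcd : ContDiff ℝ ∞ c := by have := contDiff_aa e; rw [hc]; fun_prop
  obtain ⟨C, hC⟩ : ∃ C : ℝ → ℝ → ℝ, C = fun t x => fderiv ℝ (ff e) (x, U t x) (0, !₂[1, 0, 0]) +
    fderiv ℝ c (x, U t x) (1, !₂[cj U 0 1 t x, cj U 1 1 t x, cj U 2 1 t x]) := ⟨_, rfl⟩
  have hUc : ContinuousOn (fun p : ℝ × ℝ => ((p.2, U p.1 p.2) : ℝ × E3)) (Icc t0 t1 ×ˢ Icc 0 1) :=
    continuousOn_snd.prodMk hU.smooth.continuousOn
  have hCc : ContinuousOn (fun p : ℝ × ℝ => C p.1 p.2) (Icc t0 t1 ×ˢ Icc 0 1) := by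
    rw [hC]
    refine ContinuousOn.add (ContinuousOn.clm_apply (fun p hp => ?_) continuousOn_const)
      (ContinuousOn.clm_apply ((hcd.continuous_fderiv (by simp)).comp_continuousOn hUc) ?_)
    · exact ContinuousAt.comp_continuousWithinAt (f := fun p : ℝ × ℝ => ((p.2, U p.1 p.2) : ℝ × E3))
        ((cd_ff e (hU.mem p.1 hp.1 p.2 hp.2)).fderiv_right (m := 0) (by simp)).continuousAt
        (hUc p hp)
    · refine continuousOn_const.prodMk ((PiLp.continuous_toLp 2 _).comp_continuousOn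
        (continuousOn_pi.2 fun i => ?_))
      fin_cases i
      · exact j0.cu 1
      · exact j1.cu 1
      · exact j2.cu 1
  obtain ⟨K, hK⟩ := (isCompact_Icc.prod isCompact_Icc).exists_bound_of_continuousOn hCc
  have hj : ∀ t ∈ Icc t0 t1, ∀ x ∈ Icc (0 : ℝ) 1,
      Ex.jet 1 (U t) x = !₂[cj U 0 1 t x, cj U 1 1 t x, cj U 2 1 t x] := fun t ht x hx => by
    ext i
    fin_cases i <;> simp [sol_jet hU 1 ht hx]
  have heq : ∀ t ∈ Icc t0 t1, ∀ x ∈ Icc (0 : ℝ) 1, ct (sys h) U 1 0 t x - ct (sys h) U 0 1 t x =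
      ZF e x (cj U 2 0 t x) * (cj U 1 2 t x - cj U 0 3 t x) +
      (Z1F e x (cj U 2 0 t x) (cj U 2 1 t x) + c (x, U t x)) * (cj U 1 1 t x - cj U 0 2 t x) +
      C t x * (cj U 1 0 t x - cj U 0 1 t x) := by
    intro t ht x hx
    have a1 := (((hd_ZF e (j2.dx 0 t x ht hx)).mul (j0.dx 2 t x ht hx)).add
      (hd_comp hU ht hx ((cd_ff e (hU.mem t ht x hx)).differentiableAt (by simp)))).add
      ((hd_comp hU ht hx (hcd.differentiable (by simp) _)).mul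
        ((j0.dx 1 t x ht hx).sub (j1.dx 0 t x ht hx)))
    have a2 := (uniqueDiffOn_Icc zero_lt_one x hx).eq_deriv _ (j0.dv 0 t x ht hx)
      (a1.congr (fun y hy => by rw [ct0 hU ht hy, hc]; rfl) (by rw [ct0 hU ht hx, hc]; rfl))
    have a3 : Dt (ff e) (x, U t x) (Ex.jet 1 (U t) x) =
        fderiv ℝ (ff e) (x, U t x) (1, Ex.jet 1 (U t) x) +
          (cj U 1 0 t x - cj U 0 1 t x) * fderiv ℝ (ff e) (x, U t x) (0, !₂[1, 0, 0]) := by
      rw [← smul_eq_mul, ← map_smul, ← map_add, Dt, hj t ht x hx]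
      congr 1
      ext i
      · simp
      · fin_cases i <;> simp [cj_zero]
    rw [a2, ct1 hU ht hx, a3, hC]
    simp only [Pi.sub_apply, ← hj t ht x hx]
    ring
  have hm : ∀ σ : ℝ, ∀ t ∈ Icc t0 t1, ∀ x ∈ Icc (0 : ℝ) 1,
      σ * (cj U 1 0 t x - cj U 0 1 t x) ≤ 0 := fun σ => by
    refine lin_nonpos (K := K) (u := fun t x => σ * (cj U 1 0 t x - cj U 0 1 t x))
      (ut := fun t x => σ * (ct (sys h) U 1 0 t x - ct (sys h) U 0 1 t x))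
      (ux := fun t x => σ * (cj U 1 1 t x - cj U 0 2 t x))
      (uxx := fun t x => σ * (cj U 1 2 t x - cj U 0 3 t x))
      (Z := fun t x => ZF e x (cj U 2 0 t x))
      (B := fun t x => Z1F e x (cj U 2 0 t x) (cj U 2 1 t x) + c (x, U t x)) (C := C)
      (continuousOn_const.mul ((j1.cu 0).sub (j0.cu 1)))
      (fun t ht x hx => ((j1.dt 0 t x ht hx).sub (j0.dt 1 t x ht hx)).const_mul σ)
      (fun t ht x hx => ((j1.dx 0 t x ht hx).sub (j0.dx 1 t x ht hx)).const_mul σ)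
      (fun t ht x hx => ((j1.dx 1 t x ht hx).sub (j0.dx 2 t x ht hx)).const_mul σ)
      (fun t ht x hx => by rw [heq t ht x hx]; ring)
      (fun t ht x hx => ZF_nonneg he (hU.mem t ht x hx) hx)
      (fun t ht x hx => (le_abs_self _).trans (hK (t, x) ⟨ht, hx⟩)) (fun t _ => ?_) (fun t _ => ?_)
      (fun x hx => by simp only [cj_zero, hi x hx, sub_self, mul_zero, le_refl])
    · have hm : m0 0 = 0 := m0_left (by norm_num)
      have hm1 : m1 0 = 1 := m1_left (by norm_num)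
      simp only [hc, ZF, Z1F, hm, hm1, aa_zero]
      exact ⟨by ring, by have := h.2; nlinarith⟩
    · have hm : m0 1 = 0 := by rw [m0_right (by norm_num)]; norm_num
      have hm1 : m1 1 = -1 := m1_right (by norm_num)
      simp only [hc, ZF, Z1F, hm, hm1, aa_one]
      exact ⟨by ring, by have := h.2; nlinarith⟩
  intro t ht x hx
  have a := hm 1 t ht x hx
  have b := hm (-1) t ht x hx
  rw [cj_zero] at a b
  linarith

/-- jets of `P` from `P = η'`. -/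
theorem peq_jet {S : Ex.Sys E3} (h01 : t0 < t1) (hU : Ex.IsSol S t0 t1 U) {t : ℝ}
    (ht : t ∈ Icc t0 t1) (hP : ∀ x ∈ Icc (0 : ℝ) 1, U t x 1 = cj U 0 1 t x) (j : ℕ) :
    ∀ x ∈ Icc (0 : ℝ) 1, cj U 1 j t x = cj U 0 (j + 1) t x := by
  induction j with
  | zero => exact hP
  | succ j ih =>
    intro x hx
    exact (uniqueDiffOn_Icc zero_lt_one x hx).eq_deriv _ ((jet_sol h01 hU 1).dx j t x ht hx)
      (((jet_sol h01 hU 0).dx (j + 1) t x ht hx).congr ih (ih x hx))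

/-- `P = η'` with all jets. -/
theorem peq (h01 : t0 < t1) (hU : Ex.IsSol (sys h) t0 t1 U)
    (hi : ∀ x ∈ Icc (0 : ℝ) 1, U t0 x 1 = cj U 0 1 t0 x) (j : ℕ) :
    ∀ t ∈ Icc t0 t1, ∀ x ∈ Icc (0 : ℝ) 1, cj U 1 j t x = cj U 0 (j + 1) t x :=
  fun t ht => peq_jet h01 hU ht (peq0 h01 hU hi t ht) j

end Crest.Agent.N207.S.Ga
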