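import Crest.Agent.N207.S.Ga.Defs

/-!
Row 207, S0320, block GAUGE (helper66): the system `sys q b` for block EX.
-/

set_option autoImplicit false

open Set Filter
open scoped Topology ContDiff

noncomputable section
namespace Crest.Agent.N207.S.Ga

lemma ev_line_lt {y v : ℝ × E3} {c : ℝ} (h : y.1 < c) :
    ∀ᶠ s : ℝ in 𝓝 0, (y + s • v).1 < c := by
  have : ContinuousAt (fun s : ℝ => (y + s • v).1) 0 := by fun_prop
  exact this.eventually (gt_mem_nhds (by simpa using h))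

lemma ev_line_gt {y v : ℝ × E3} {c : ℝ} (h : c < y.1) :
    ∀ᶠ s : ℝ in 𝓝 0, c < (y + s • v).1 := by
  have : ContinuousAt (fun s : ℝ => (y + s • v).1) 0 := by fun_prop
  exact this.eventually (lt_mem_nhds (by simpa using h))

lemma Dt_bet_left (e : ℝ) {y : ℝ × E3} (hy : y ∈ Om) (h : y.1 < 1 / 3) (p : E3) :
    Dt (bet e) y p = -(2 * e * (y.2 2 + y.1 * p 2)) := by
  refine fderiv_eq_of_line ((cd_bet e hy).differentiableAt (by simp)) ?_
  have h1 : HasDerivAt (fun s : ℝ => 1 + 2 * e * (1 - (y.1 + s) * (y.2 2 + s * p 2)))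
      (-(2 * e * (y.2 2 + y.1 * p 2))) 0 := by
    have := (((((hasDerivAt_id (0 : ℝ)).const_add y.1).mul
      (((hasDerivAt_id (0 : ℝ)).mul_const (p 2)).const_add (y.2 2))).const_sub 1).const_mul
        (2 * e)).const_add 1
    exact HasDerivAt.congr_deriv this (by simp only [id]; ring)
  refine h1.congr_of_eventuallyEq ?_
  filter_upwards [ev_line_lt (v := (1, !₂[y.2 1, p 1, p 2])) h] with s hs
  rw [bet_left e hs]
  simp

lemma Dt_bet_right (e : ℝ) {y : ℝ × E3} (hy : y ∈ Om) (h : 2 / 3 < y.1) (p : E3) :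
    Dt (bet e) y p = -(2 * e * (y.2 2 - (1 - y.1) * p 2)) := by
  refine fderiv_eq_of_line ((cd_bet e hy).differentiableAt (by simp)) ?_
  have h1 : HasDerivAt (fun s : ℝ => -(1 + 2 * e * (1 - (1 - (y.1 + s)) * (y.2 2 + s * p 2))))
      (-(2 * e * (y.2 2 - (1 - y.1) * p 2))) 0 := by
    have := (((((((hasDerivAt_id (0 : ℝ)).const_add y.1).const_sub 1).mul
      (((hasDerivAt_id (0 : ℝ)).mul_const (p 2)).const_add (y.2 2))).const_sub 1).const_mul
        (2 * e)).const_add 1).neg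
    exact HasDerivAt.congr_deriv this (by simp only [id]; ring)
  refine h1.congr_of_eventuallyEq ?_
  filter_upwards [ev_line_gt (v := (1, !₂[y.2 1, p 1, p 2])) h] with s hs
  rw [bet_right e hs]
  simp

lemma agree_g {e : ℝ} (he : 0 < e) :
    Agree (fun z : (ℝ × E3) × E3 => z.1.1) (Om ×ˢ univ) (g0 e) (gm e) (g1 e) where
  e0 := by
    rintro ⟨y, p⟩ ⟨hy, -⟩ h0 h
    simp only at h0 h hy
    have hw := hy.1
    simp only [wF, m1_left h, one_mul] at hw
    simp only [g0, gm, gxF, gmF, Dt_bet_left e hy h, bet_left e h, ZF, Z1F, zeF, w1F, wF, x1F,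
      m0_left h.le, m1_left h, m2_left h, sig_left h, one_mul]
    field_simp
    ring
  e1 := by
    rintro ⟨y, p⟩ ⟨hy, -⟩ h h1
    simp only at h1 h hy
    have hw := hy.1
    simp only [wF, m1_right h, neg_mul, one_mul, ← sub_eq_add_neg] at hw
    have h2 : 1 - y.1 ≠ 0 := by linarith
    simp only [g1, gm, gxF, gmF, Dt_bet_right e hy h, bet_right e h, ZF, Z1F, zeF, w1F, wF, x1F,
      m0_right h.le, m1_right h, m2_right h, sig_right h, neg_mul, one_mul, ← sub_eq_add_neg]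
    field_simp
    ring

lemma isOpen_OmU : IsOpen (Om ×ˢ (univ : Set E3)) := isOpen_Om.prod isOpen_univ

lemma cd_gg {e : ℝ} (he : 0 < e) {z : (ℝ × E3) × E3} (hz : z ∈ Om ×ˢ (univ : Set E3)) :
    ContDiffAt ℝ ∞ (gg e) z := by
  refine contDiffOn_patch (by fun_prop) isOpen_OmU (agree_g he) ?_ ?_ ?_ hz
  · intro p hp h
    have hw := hp.1.1
    simp only [wF, m1_left h, one_mul] at hw
    have := (pow_pos hw 2).ne'
    unfold g0 gxF
    fun_prop (disch := assumption)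
  · intro p hp h h'
    have h0 := contDiff_m0
    have h1 := contDiff_m1
    have h2 := contDiff_m2
    have h4 := contDiff_sig
    have a1 := hp.1.1.ne'
    have a2 := hp.1.2.2.1.ne'
    have a3 : 2 * e * m0 p.1.1 ^ 2 ≠ 0 := (mul_pos (by linarith) (pow_pos (m0_pos h h') 2)).ne'
    have b1 : ContDiffAt ℝ ∞ (fun z : (ℝ × E3) × E3 => bet e z.1) p :=
      (cd_bet e hp.1).comp p contDiffAt_fst
    have b2 := cd_Dt (z := p) (cd_bet e hp.1)
    unfold wF at a1
    unfold gm gmF ZF Z1F zeF w1F wF x1F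
    fun_prop (disch := assumption)
  · intro p hp h
    have hw := hp.1.1
    simp only [wF, m1_right h, neg_mul, one_mul, ← sub_eq_add_neg] at hw
    have := (pow_pos hw 2).ne'
    unfold g1 gxF
    fun_prop (disch := assumption)

lemma gg_left {e : ℝ} (he : 0 < e) {y : ℝ × E3} (hy : y ∈ Om) (h : y.1 < 1 / 3) (p : E3) :
    gg e (y, p) = gxF e y.1 (y.1 + y.2 0) (1 + y.2 1) (y.2 2) (p 2) :=
  patch_left (agree_g he) (p := (y, p)) ⟨hy, mem_univ _⟩ h

lemma gg_right {e : ℝ} (he : 0 < e) {y : ℝ × E3} (hy : y ∈ Om) (h : 2 / 3 < y.1) (p : E3) :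
    gg e (y, p) = gxF e (1 - y.1) (y.1 - y.2 0) (y.2 1 - 1) (y.2 2) (-p 2) :=
  patch_right (agree_g he) (p := (y, p)) ⟨hy, mem_univ _⟩ h

lemma gg_mid {e : ℝ} (he : 0 < e) {y : ℝ × E3} (hy : y ∈ Om) (h0 : 0 < y.1) (h1 : y.1 < 1)
    (p : E3) : gg e (y, p) = gmF e y.1 (y.2 0) (y.2 1) (y.2 2) (p 2) (bet e y) (Dt (bet e) y p) :=
  patch_mid (agree_g he) (p := (y, p)) ⟨hy, mem_univ _⟩ h0 h1

lemma cd_Psi {e : ℝ} (he : 0 < e) (b : ℕ) {z : (ℝ × E3) × E3} (hz : z ∈ Om ×ˢ (univ : Set E3)) :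
    ContDiffAt ℝ ∞ (Psi e b) z := by
  have h0 := contDiff_m0
  have h1 := contDiff_m1
  have h2 := contDiff_aa e
  have b1 : ContDiffAt ℝ ∞ (fun z : (ℝ × E3) × E3 => ff e z.1) z :=
    (cd_ff e hz.1).comp z contDiffAt_fst
  have b2 := cd_Dt (z := z) (cd_ff e hz.1)
  refine cd_vec ?_ ?_ (cd_gg he hz)
  · fun_prop
  · unfold Z1F; fun_prop

lemma Dt_sub (F : ℝ × E3 → ℝ) (y : ℝ × E3) (p : E3) :
    Dt F y p = Dt F y 0 + fderiv ℝ F y (0, !₂[0, p 1, p 2]) := by
  unfold Dt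
  rw [← map_add]
  congr 1
  ext i
  · simp
  · fin_cases i <;> simp

lemma fd_ff_zero (e : ℝ) {u : E3} (hy : ((0 : ℝ), u) ∈ Om) (p : E3) :
    fderiv ℝ (ff e) (0, u) (0, !₂[0, p 1, p 2]) = (1 + 2 * e) * p 1 := by
  refine fderiv_eq_of_line ((cd_ff e hy).differentiableAt (by simp)) ?_
  have h1 : HasDerivAt (fun s : ℝ => (1 + 2 * e) * (1 + (u 1 + s * p 1)) - 1)
      ((1 + 2 * e) * p 1) 0 := by
    have := (((((hasDerivAt_id (0 : ℝ)).mul_const (p 1)).const_add (u 1)).const_add 1).const_mul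
      (1 + 2 * e)).sub_const 1
    exact HasDerivAt.congr_deriv this (by ring)
  convert h1 using 2 with s
  rw [ff_left e (by simp)]
  simp

lemma fd_ff_one (e : ℝ) {u : E3} (hy : ((1 : ℝ), u) ∈ Om) (p : E3) :
    fderiv ℝ (ff e) (1, u) (0, !₂[0, p 1, p 2]) = -((1 + 2 * e) * p 1) := by
  refine fderiv_eq_of_line ((cd_ff e hy).differentiableAt (by simp)) ?_
  have h1 : HasDerivAt (fun s : ℝ => (1 + 2 * e) * (1 - (u 1 + s * p 1)) + 1)
      (-((1 + 2 * e) * p 1)) 0 := by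
    have := (((((hasDerivAt_id (0 : ℝ)).mul_const (p 1)).const_add (u 1)).const_sub 1).const_mul
      (1 + 2 * e)).add_const 1
    exact HasDerivAt.congr_deriv this (by ring)
  convert h1 using 2 with s
  rw [ff_right e (by simp; norm_num)]
  simp

lemma aa_zero (e : ℝ) (u : E3) : aa e (0, u) = 2 * e := by
  simp [aa, nu_left (x := 0) (by norm_num), m0_left (x := 0) (by norm_num)]

lemma aa_one (e : ℝ) (u : E3) : aa e (1, u) = 2 * e := by
  simp [aa, nu_right (x := 1) (by norm_num), m0_right (x := 1) (by norm_num)]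

/-- the relation between `e = 1/(q-1)` and `b = (q+3)/2`. -/
def Rel (e : ℝ) (b : ℕ) : Prop := 0 < e ∧ 2 * e * b = 1 + 4 * e

/-- The system of the global gauge. -/
def sys {e : ℝ} {b : ℕ} (h : Rel e b) : Ex.Sys E3 where
  b := b
  hb := by
    rcases Nat.eq_zero_or_pos b with h0 | h0
    · have := h.2
      rw [h0] at this
      simp only [Nat.cast_zero, mul_zero] at this
      linarith [h.1]
    · exact h0
  Om := Om
  isOpen := isOpen_Om
  a := aa e
  Psi := Psi e b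
  ha := (contDiff_aa e).contDiffOn
  hPsi := fun z hz => (cd_Psi h.1 b hz).contDiffWithinAt
  apos := fun y hy => aa_pos h.1 hy
  pole0 := by
    intro u p hu
    have hm : m0 0 = 0 := m0_left (by norm_num)
    have hm1 : m1 0 = 1 := m1_left (by norm_num)
    rw [aa_zero, h.2]
    ext i
    fin_cases i
    · simp [Psi, aa_zero, h.2]; ring
    · simp [Psi, Z1F, hm, hm1, Dt_sub (ff e) (0, u) p, fd_ff_zero e hu]; ring
    · simp [Psi, gg_left h.1 hu, gxF]; ring
  pole1 := by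
    intro u p hu
    have hm : m0 1 = 0 := by rw [m0_right (by norm_num)]; norm_num
    have hm1 : m1 1 = -1 := m1_right (by norm_num)
    have h3 : (2 / 3 : ℝ) < ((1 : ℝ), u).1 := by norm_num
    rw [aa_one, h.2]
    ext i
    fin_cases i
    · simp [Psi, aa_one, h.2]; ring
    · simp [Psi, Z1F, hm, hm1, Dt_sub (ff e) (1, u) p, fd_ff_one e hu]; ring
    · simp [Psi, gg_right h.1 hu h3, gxF]; ring

/-- `e = 1/(q-1)` for `q + 3 = 2b`. -/
lemma rel_of {q b : ℕ} (hq : 2 ≤ q) (h : q + 3 = 2 * b) : Rel (1 / ((q : ℝ) - 1)) b := by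
  have h1 : (2 : ℝ) ≤ q := by exact_mod_cast hq
  have h2 : (q : ℝ) + 3 = 2 * b := by exact_mod_cast h
  have h3 : (q : ℝ) - 1 ≠ 0 := by linarith
  refine ⟨one_div_pos.2 (by linarith), ?_⟩
  field_simp
  linarith

end Crest.Agent.N207.S.Ga
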