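import Crest.Agent.N207.S.Ga.Alg

/-!
Row 207, S0320, block GAUGE (helper66): a solution of `sys` on `[0,T)` gives a `Geo.GaugeSol`.
-/

set_option autoImplicit false

open Set Filter
open scoped Topology ContDiff

noncomputable section
namespace Crest.Agent.N207.S.Ga

/-- the first jet. -/
def J1 (U : ℝ → ℝ → E3) (t x : ℝ) : E3 := !₂[cj U 0 1 t x, cj U 1 1 t x, cj U 2 1 t x]

/-- a function of the 1-jet evaluated along `U`. -/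
def lift (U : ℝ → ℝ → E3) (G : (ℝ × E3) × E3 → ℝ) (t x : ℝ) : ℝ := G ((x, U t x), J1 U t x)

variable {e : ℝ} {b : ℕ} {h : Rel e b} {t0 t1 T : ℝ} {U : ℝ → ℝ → E3}

lemma jet1_eq {S : Ex.Sys E3} (hU : Ex.IsSol S t0 t1 U) {t x : ℝ} (ht : t ∈ Icc t0 t1)
    (hx : x ∈ Icc (0 : ℝ) 1) : Ex.jet 1 (U t) x = J1 U t x := by
  ext i
  fin_cases i <;> simp [J1, sol_jet hU 1 ht hx]

lemma smC_lift (hU : ∀ t ∈ Ioo 0 T, Ex.IsSol (sys h) 0 t U) {G : (ℝ × E3) × E3 → ℝ}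
    (hG : ∀ z ∈ Om ×ˢ (univ : Set E3), ContDiffAt ℝ ∞ G z) : Geo.SmC 0 T (lift U G) := by
  intro p hp
  obtain ⟨s, hs, hs'⟩ := exists_between hp.1.2
  have h0 := hp.1.1.trans hs
  have hS := hU s ⟨h0, hs'⟩
  have hp' : p ∈ Icc 0 s ×ˢ Icc (0 : ℝ) 1 := ⟨⟨hp.1.1.le, hs.le⟩, hp.2⟩
  have hJ : ContDiffOn ℝ ∞ (fun p : ℝ × ℝ => J1 U p.1 p.2) (Icc 0 s ×ˢ Icc 0 1) := by
    refine contDiffOn_euclidean.2 fun i => ?_
    fin_cases i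
    · exact cd_cj h0 hS 0 1
    · exact cd_cj h0 hS 1 1
    · exact cd_cj h0 hS 2 1
  have h1 := ((contDiffOn_snd.prodMk hS.smooth).prodMk hJ) p hp'
  refine (ContDiffAt.comp_contDiffWithinAt p (hG ((p.2, U p.1 p.2), J1 U p.1 p.2)
    ⟨hS.mem _ hp'.1 _ hp'.2, mem_univ _⟩) h1).mono_of_mem_nhdsWithin ?_
  refine mem_nhdsWithin.2 ⟨Iio s ×ˢ univ, isOpen_Iio.prod isOpen_univ, ⟨hs, mem_univ _⟩, ?_⟩
  exact fun y hy => ⟨⟨hy.2.1.1.le, le_of_lt hy.1.1⟩, hy.2.2⟩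

lemma bub_X (e : ℝ) (U : ℝ → ℝ → E3) :
    Geo.bub 4 (lift U (GX e)) = fun t y => 2 * (1 / e) * xF y (U t y 0) := by
  funext t y
  simp only [Geo.bub, lift, GX, xF]
  rw [m0_eq y]
  ring

lemma bub_z (e : ℝ) (U : ℝ → ℝ → E3) :
    Geo.bub 1 (lift U (Gz e)) = fun t y => ZF e y (U t y 2) := by
  funext t y
  have := aa_mu e (y, U t y)
  simp only [Geo.bub, lift, Gz, Ex.mu] at this ⊢
  rw [← this]
  ring

theorem interior_eqs {q : ℕ} (hq : (q : ℝ) = 1 / e + 1) (h01 : t0 < t1)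
    (hU : Ex.IsSol (sys h) t0 t1 U)
    (hP : ∀ t ∈ Icc t0 t1, ∀ x ∈ Icc (0 : ℝ) 1, U t x 1 = cj U 0 1 t x) {t ξ : ℝ}
    (ht : t ∈ Ioo t0 t1) (hξ : ξ ∈ Ioo (0 : ℝ) 1) :
    Geo.Eqs q (lift U GW) (Geo.bub 4 (lift U (GX e))) (Geo.bub 1 (lift U (Gz e)))
      (Geo.bub 1 (lift U (Gv e))) t ξ ∧
    Geo.fR q (lift U GW t) (Geo.bub 4 (lift U (GX e)) t) (Geo.bub 1 (lift U (Gz e)) t) ξ =
      Rm q e (ξ, U t ξ) (cj U 0 2 t ξ) (cj U 2 1 t ξ) := by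
  have he := h.1
  have ht' := Ioo_subset_Icc_self ht
  have hξ' := Ioo_subset_Icc_self hξ
  have ev : ∀ᶠ y in 𝓝 ξ, y ∈ Ioo (0 : ℝ) 1 := Ioo_mem_nhds hξ.1 hξ.2
  have dj : ∀ i j, ∀ y ∈ Ioo (0 : ℝ) 1, HasDerivAt (cj U i j t) (cj U i (j + 1) t y) y :=
    fun i j y hy => ((jet_sol h01 hU i).dx j t y ht' (Ioo_subset_Icc_self hy)).hasDerivAt
      (Icc_mem_nhds hy.1 hy.2)
  have d0 : ∀ y ∈ Ioo (0 : ℝ) 1, HasDerivAt (fun y => U t y 0) (U t y 1) y := fun y hy => by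
    rw [hP t ht' y (Ioo_subset_Icc_self hy)]; exact dj 0 0 y hy
  have d1 : HasDerivAt (fun y => U t y 1) (cj U 0 2 t ξ) ξ := by
    rw [← peq_jet h01 hU ht' (hP t ht') 1 ξ hξ']; exact dj 1 0 ξ hξ
  have dk : ∀ y ∈ Ioo (0 : ℝ) 1, HasDerivAt (fun y => U t y 2) (cj U 2 1 t y) y := dj 2 0
  have dk1 := dj 2 1 ξ hξ
  have dt : ∀ i, HasDerivAt (fun s => U s ξ i) (ct (sys h) U i 0 t ξ) t := fun i =>
    ((jet_sol h01 hU i).dt 0 t ξ ht' hξ').hasDerivAt (Icc_mem_nhds ht.1 ht.2)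
  have hy := hU.mem t ht' ξ hξ'
  have hw : wF ξ (U t ξ 0) ≠ 0 := hy.1.ne'
  have hD : DF ξ (U t ξ 0) ≠ 0 := hy.2.2.2.ne'
  have hs : 1 - sig ξ * U t ξ 0 ≠ 0 := hy.2.2.1.ne'
  have hm : m0 ξ ≠ 0 := (m0_pos hξ.1 hξ.2).ne'
  have hze : zeF e ξ (U t ξ 0) (U t ξ 2) = ZF e ξ (U t ξ 2) / xF ξ (U t ξ 0) := by
    unfold zeF ZF xF; field_simp
  have c0 : ct (sys h) U 0 0 t ξ = ZF e ξ (U t ξ 2) * cj U 0 2 t ξ +
      fF e ξ (U t ξ 0) (U t ξ 1) (U t ξ 2) := by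
    rw [ct0 hU ht' hξ', ← hP t ht' ξ hξ', cj_zero, cj_zero, sub_self, mul_zero, add_zero]; rfl
  have db : HasDerivAt (fun y => bet e (y, U t y)) (Dt (bet e) (ξ, U t ξ) (J1 U t ξ)) ξ := by
    have := (hd_comp hU ht' hξ' ((cd_bet e hy).differentiableAt (by simp))).hasDerivAt
      (Icc_mem_nhds hξ.1 hξ.2)
    rw [jet1_eq hU ht' hξ'] at this
    simpa [Dt, J1, hP t ht' ξ hξ'] using this
  rw [bub_X, bub_z]
  refine eqs_of (N := 1 / e) hq (by positivity) (w := fun y => wF y (U t y 0))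
    (w1 := fun y => w1F y (U t y 0) (U t y 1)) (x := fun y => xF y (U t y 0))
    (x1 := fun y => x1F y (U t y 0) (U t y 1)) (Z1 := fun y => Z1F e y (U t y 2) (cj U 2 1 t y))
    (β := fun y => bet e (y, U t y))
    (Z2 := 2 * e * (m2 ξ - 2 * (m1 ξ ^ 2 + m0 ξ * m2 ξ) * U t ξ 2 - 4 * m0 ξ * m1 ξ * cj U 2 1 t ξ -
      m0 ξ ^ 2 * cj U 2 2 t ξ))
    (wt := m1 ξ * ct (sys h) U 0 0 t ξ) (xt := (m1 ξ ^ 2 - 1) * ct (sys h) U 0 0 t ξ)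
    (Zt := -(2 * e * m0 ξ ^ 2 * ct (sys h) U 2 0 t ξ))
    rfl rfl (ev.mono fun y hy => ?_) ?_ (ev.mono fun y hy => ?_) ?_ (ev.mono fun y hy => ?_) ?_ db
    (ev.mono fun y hy => ?_) ?_ ?_ ?_ hw (xF_pos hy hξ.1 hξ.2).ne' ?_ ?_ ?_
  · refine HasDerivAt.congr_deriv ((hasDerivAt_id y).add ((hd_m1 y).mul (d0 y hy))) ?_
    simp only [w1F]; ring
  · refine HasDerivAt.congr_deriv ((((hd_m2 ξ).mul (d0 ξ hξ)).const_add 1).add
      ((hd_m1 ξ).mul d1)) ?_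
    simp only [A1F]; ring
  · simp only [xF_eq]
    refine HasDerivAt.congr_deriv ((hd_m0 y).add ((((hd_m1 y).pow 2).sub_const 1).mul
      (d0 y hy))) ?_
    simp [x1F]; ring
  · refine HasDerivAt.congr_deriv (((hd_m1 ξ).add
      ((((hd_m1 ξ).const_mul 2).mul (hd_m2 ξ)).mul (d0 ξ hξ))).add
      ((((hd_m1 ξ).pow 2).sub_const 1).mul d1)) ?_
    simp [A2F]; ring
  · exact hasDerivWithinAt_univ.1 (hd_ZF e (dk y hy).hasDerivWithinAt)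
  · refine HasDerivAt.congr_deriv ((((hd_m1 ξ).sub
      ((((hd_m0 ξ).const_mul 2).mul (hd_m1 ξ)).mul (dk ξ hξ))).sub
      (((hd_m0 ξ).pow 2).mul dk1)).const_mul (2 * e)) ?_
    congr 1
    simp; ring
  · have := Gv_mid he (z := ((y, U t y), J1 U t y))
      ⟨hU.mem t ht' y (Ioo_subset_Icc_self hy), mem_univ _⟩ hy.1 hy.2
    simp only [Geo.bub, lift, hq]
    exact this
  · exact (((dt 0).const_mul (m1 ξ)).const_add ξ).const_mul 2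
  · simp only [xF_eq]
    exact (((dt 0).const_mul (m1 ξ ^ 2 - 1)).const_add (m0 ξ)).const_mul _
  · refine HasDerivAt.congr_deriv ((((dt 2).const_mul (m0 ξ)).const_sub 1).const_mul
      (2 * e * m0 ξ)) ?_
    ring
  · have := cramer1 e hD (U t ξ 1) (U t ξ 2)
    simp only [c0, bet]
    rw [mul_add, this, G1F]
    ring
  · have := cramer2 e hD (U t ξ 1) (U t ξ 2)
    simp only [c0, bet]
    rw [mul_add, this, G2F, hze]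
    ring
  · rw [ct2 hU ht' hξ', gg_mid he hy hξ.1 hξ.2, jet1_eq hU ht' hξ', cj_zero]
    have : J1 U t ξ 2 = cj U 2 1 t ξ := rfl
    simp only [gmF, this, hze, hq]
    field_simp
    ring

/-- **Block GAUGE, top statement.** -/
def TopStmt : Prop :=
  ∀ (q b : ℕ) (e : ℝ) (h : Rel e b) (T xs : ℝ) (U : ℝ → ℝ → E3), e = 1 / ((q : ℝ) - 1) → 0 < T →
    0 < xs → xs < 1 / 3 → (∀ t ∈ Ioo 0 T, Ex.IsSol (sys h) 0 t U) →
    (∀ x ∈ Icc (0 : ℝ) 1, U 0 x 1 = cj U 0 1 0 x) →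
    (∃ C, ∀ t ∈ Ioo 0 T, ∀ x ∈ Icc 0 xs,
      |scal e x (wj U 0 t x) (wj U 1 t x) (wj U 2 t x) (cj U 2 0 t x) (cj U 2 1 t x)| ≤ C) →
    (∃ (K : Set (ℝ × E3)) (C : ℝ), IsCompact K ∧ K ⊆ Om ∧ ∀ t ∈ Ioo 0 T, ∀ x ∈ Icc xs 1,
      (x, U t x) ∈ K ∧ |cj U 0 2 t x| ≤ C ∧ |cj U 2 1 t x| ≤ C) →
    Tendsto (fun t => wj U 0 t 0) (𝓝[<] T) (𝓝 0) →
    ∃ W X z Y v, Geo.GaugeSol q 0 T W X z Y v

theorem topStmt : TopStmt := by
  intro q b e h T xs U hqe hT hxs hxs' hU hi ⟨C1, hC1⟩ ⟨K, C, hK, hKO, hC⟩ htip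
  have he := h.1
  have hq : (q : ℝ) = 1 / e + 1 := by rw [hqe, one_div_one_div]; ring
  have win : ∀ t ∈ Ioo 0 T, ∃ s, t < s ∧ Ex.IsSol (sys h) 0 s U ∧
      ∀ t ∈ Icc 0 s, ∀ x ∈ Icc (0 : ℝ) 1, U t x 1 = cj U 0 1 t x := fun t ht => by
    obtain ⟨s, hs, hs'⟩ := exists_between ht.2
    exact ⟨s, hs, hU s ⟨ht.1.trans hs, hs'⟩, peq0 (ht.1.trans hs) (hU s ⟨ht.1.trans hs, hs'⟩) hi⟩
  have mem : ∀ t ∈ Ioo 0 T, ∀ x ∈ Icc (0 : ℝ) 1, (x, U t x) ∈ Om := fun t ht x hx =>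
    (hU t ht).mem t ⟨ht.1.le, le_rfl⟩ x hx
  obtain ⟨B, hB⟩ := Rm_bound he hq hxs hK hKO C
  refine ⟨lift U GW, lift U (GX e), lift U (Gz e), lift U (GY e), lift U (Gv e), hT,
    smC_lift hU fun _ _ => cd_GW.contDiffAt, smC_lift hU fun _ _ => (cd_GX e).contDiffAt,
    smC_lift hU fun _ _ => (cd_Gz e).contDiffAt, smC_lift hU fun _ hz => cd_GY he hz,
    smC_lift hU fun _ hz => cd_Gv he hz, fun t ht x hx => mul_pos two_pos (mem t ht x hx).1,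
    fun t ht x hx => ?_, fun t ht x hx => aa_pos he (mem t ht x hx),
    fun t ht x hx => GY_pole he (z := ((x, U t x), J1 U t x)) ⟨mem t ht x hx, mem_univ _⟩ hx,
    fun t ht x hx => ?_, ⟨max C1 B, fun t ht x hx => ?_⟩, ?_⟩
  · exact div_pos (mul_pos (mul_pos (by positivity) (nu_pos x)) (mem t ht x hx).2.2.1) two_pos
  · obtain ⟨s, hs, hS, hP⟩ := win t ht
    exact (interior_eqs hq (ht.1.trans hs) hS hP ⟨ht.1, hs⟩ hx).1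
  · obtain ⟨s, hs, hS, hP⟩ := win t ht
    have hx' := Ioo_subset_Icc_self hx
    rw [(interior_eqs hq (ht.1.trans hs) hS hP ⟨ht.1, hs⟩ hx).2]
    rcases le_total x xs with a | a
    · rw [Rm_left he hq (mem t ht x hx') hx.1 (a.trans_lt hxs')]
      have := hC1 t ht x ⟨hx.1.le, a⟩
      rw [wj_succ U 0, wj_one, ← hP t ⟨ht.1.le, hs.le⟩ x hx'] at this
      exact this.trans (le_max_left _ _)
    · obtain ⟨u, v, w⟩ := hC t ht x ⟨a, hx.2.le⟩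
      exact (hB _ u a hx.2 _ _ v w).trans (le_max_right _ _)
  · have := htip.const_mul 2
    rw [mul_zero] at this
    refine this.congr fun t => ?_
    simp [lift, GW, wF, wj_zero, m1_left (x := 0) (by norm_num)]

end Crest.Agent.N207.S.Ga
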